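import Vale.Agent.P095.FixSC
import Vale.Agent.P101.Final2

/-!
# P095: Theorem A (all countable groups)
-/

open Filter Topology BoundedContinuousFunction

namespace Vale.Agent.P095

open Vale.Agent.P101 Vale.Agent.P101.UltA

universe u v

/-- the two descriptions of the fixed point algebra -/
theorem fixIso (ω : Ultrafilter ℕ) {A : Type u} [CStarAlgebra A] {G : Type v} [Group G]
    (α : G →* (A ≃⋆ₐ[ℂ] A)) :
    letI := cs ω (A := A)
    Nonempty (fixAlg (FF ω A) (fun g => act ω α g) ≃⋆ₐ[ℂ] FixCentral ω α) := by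
  letI := cs ω (A := A)
  have h1 : ∀ x : fixAlg (FF ω A) (fun g => act ω α g),
      (((x : FF ω A) : Ultrapower ω A)) ∈ FixCentral ω α := by
    intro x
    refine ⟨(x : FF ω A).2, fun g => ?_⟩
    have h := congrArg (fun z : FF ω A => (z : Ultrapower ω A)) (x.2 g)
    exact h
  have h2 : ∀ x : FixCentral ω α, (⟨(x : Ultrapower ω A), x.2.1⟩ : FF ω A) ∈
      fixAlg (FF ω A) (fun g => act ω α g) := by
    intro x g
    exact Subtype.ext (x.2.2 g)
  exact ⟨{ toFun := fun x => ⟨((x : FF ω A) : Ultrapower ω A), h1 x⟩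
           invFun := fun x => ⟨⟨(x : Ultrapower ω A), x.2.1⟩, h2 x⟩
           left_inv := fun _ => rfl
           right_inv := fun _ => rfl
           map_mul' := fun _ _ => rfl
           map_add' := fun _ _ => rfl
           map_star' := fun _ => rfl
           map_smul' := fun _ _ => rfl }⟩

theorem thmA (ω : Ultrafilter ℕ) (hω : (ω : Filter ℕ) ≤ Filter.cofinite) {A : Type u}
    [CStarAlgebra A] [TopologicalSpace.SeparableSpace A] {G : Type v} [Group G] [Countable G]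
    (α : G →* (A ≃⋆ₐ[ℂ] A)) (hχ : IsEmpty (FixCentral ω α →⋆ₐ[ℂ] ℂ)) (n : ℕ) :
    Nonempty (DimDrop (n + 2) (n + 3) →⋆ₐ[ℂ] FixCentral ω α) := by
  letI := cs ω (A := A)
  obtain ⟨e1⟩ := fixIso ω α
  obtain ⟨E, _, ⟨e2⟩, hE⟩ := fixsc (FF ω A) G (fun g => act ω α g) (eqSelfComm ω α hω)
  have hEχ : IsEmpty (E →⋆ₐ[ℂ] ℂ) :=
    ⟨fun χ => hχ.false (χ.comp (((e2.trans e1).symm : FixCentral ω α ≃⋆ₐ[ℂ] E) :
      FixCentral ω α →⋆ₐ[ℂ] E))⟩
  obtain ⟨ρ⟩ := dim E n (abstract E hE hEχ n)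
  exact ⟨((e2.trans e1 : E ≃⋆ₐ[ℂ] FixCentral ω α) : E →⋆ₐ[ℂ] FixCentral ω α).comp ρ⟩

theorem thmA_iff (ω : Ultrafilter ℕ) (hω : (ω : Filter ℕ) ≤ Filter.cofinite) {A : Type u}
    [CStarAlgebra A] [TopologicalSpace.SeparableSpace A] {G : Type v} [Group G] [Countable G]
    (α : G →* (A ≃⋆ₐ[ℂ] A)) : IsEmpty (FixCentral ω α →⋆ₐ[ℂ] ℂ) ↔
    ∀ n, Nonempty (DimDrop (n + 2) (n + 3) →⋆ₐ[ℂ] FixCentral ω α) :=
  ⟨fun h n => thmA ω hω α h n, fun h => ⟨fun χ => (dimDrop_noChar 0 1).false (χ.comp (h 0).some)⟩⟩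

end Vale.Agent.P095
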