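import Vale.Agent.P095.LocFin
import Vale.Agent.P095.ThmA

/-!
# P095: certificates for the absence of characters, locally finite groups
-/

open Filter Topology BoundedContinuousFunction

namespace Vale.Agent.P095

open Vale.Agent.P101 Vale.Agent.P101.UltA

universe u v

/-- a certificate for the absence of characters -/
def Cert {R : Type*} [Ring R] [StarRing R] (x u v s : R) : Prop :=
  x * x = 0 ∧ x * star x + star x * x = (u + v) * (u + v) ∧ u * v = 0 ∧ u * s = s ∧
    star s * s = 1 - (u + v)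

theorem Cert.noChar {R : Type*} [Ring R] [StarRing R] [Algebra ℂ R] {x u v s : R}
    (h : Cert x u v s) : IsEmpty (R →⋆ₐ[ℂ] ℂ) := by
  refine ⟨fun χ => ?_⟩
  obtain ⟨h1, h2, h3, h4, h5⟩ := h
  have e1 : χ x = 0 := mul_self_eq_zero.mp (by rw [← map_mul, h1, map_zero])
  have e2 : χ u + χ v = 0 := by
    refine mul_self_eq_zero.mp ?_
    rw [← map_add, ← map_mul, ← h2, map_add, map_mul, map_mul, e1, zero_mul, mul_zero, add_zero]
  have e3 : χ u * χ v = 0 := by rw [← map_mul, h3, map_zero]
  have e4 : χ u = 0 := by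
    rcases mul_eq_zero.mp e3 with h | h
    · exact h
    · rw [h, add_zero] at e2; exact e2
  have e5 : χ s = 0 := by rw [← h4, map_mul, e4, zero_mul]
  have e6 : χ (star s * s) = 1 := by rw [h5, map_sub, map_one, map_add, e2, sub_zero]
  rw [map_mul, e5, mul_zero] at e6
  exact zero_ne_one e6

theorem cert_of_RW {F : Type u} [CStarAlgebra F] (P : StarSubalgebra ℂ F) (h : RW 0 P) :
    ∃ x u v s : F, (x ∈ P ∧ u ∈ P ∧ v ∈ P ∧ s ∈ P) ∧ Cert x u v s ∧
      ‖x‖ ≤ 1 ∧ ‖u‖ ≤ 1 ∧ ‖v‖ ≤ 1 ∧ ‖s‖ ≤ 1 := by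
  obtain ⟨p, hp, s, hs, hs1⟩ := h
  set e : Fin 2 → Fin 2 → P := fun i j => p (Matrix.single i j 1) with he
  have hmul : ∀ i j k l, j = k → e i j * e k l = p 1 * e i l := by
    intro i j k l hjk
    subst hjk
    rw [he]
    change p (Matrix.single i j 1) * p (Matrix.single j l 1) = _
    rw [hp.mul_map, Matrix.single_mul_single_same, one_mul]
  have hmul0 : ∀ i j k l, j ≠ k → e i j * e k l = 0 := by
    intro i j k l hjk
    change p (Matrix.single i j 1) * p (Matrix.single k l 1) = _
    rw [hp.mul_map, Matrix.single_mul_single_of_ne _ _ _ _ hjk, map_zero, mul_zero]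
  have hstar : ∀ i j, star (e i j) = e j i := by
    intro i j
    change star (p (Matrix.single i j 1)) = p (Matrix.single j i 1)
    rw [← hp.star_map, Matrix.star_eq_conjTranspose, Matrix.conjTranspose_single, star_one]
  have hone : p 1 = e 0 0 + e 1 1 := by
    change p 1 = p (Matrix.single 0 0 1) + p (Matrix.single 1 1 1)
    rw [← map_add]
    congr 1
    ext i j
    fin_cases i <;> fin_cases j <;> simp [Matrix.single]
  obtain ⟨t, ht⟩ := hp.nonneg
  obtain ⟨r, hr⟩ := hp.le_one
  -- norms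
  letI := CStarAlgebra.spectralOrder F
  haveI := CStarAlgebra.spectralOrderedRing F
  have hh : ((p 1 : P) : F) = star (t : F) * t := by rw [ht]; rfl
  have hh' : 1 - ((p 1 : P) : F) = star (r : F) * r := by
    have := congrArg (fun z : P => (z : F)) hr
    exact this
  have h0 : 0 ≤ ((p 1 : P) : F) := by rw [hh]; exact star_mul_self_nonneg _
  have h0' : 0 ≤ 1 - ((p 1 : P) : F) := by rw [hh']; exact star_mul_self_nonneg _
  have hn : ‖((p 1 : P) : F)‖ ≤ 1 := by
    rw [CStarAlgebra.norm_le_one_iff_of_nonneg _ h0]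
    exact sub_nonneg.mp h0'
  have hn' : ‖1 - ((p 1 : P) : F)‖ ≤ 1 := by
    rw [CStarAlgebra.norm_le_one_iff_of_nonneg _ h0']
    exact sub_le_self _ h0
  have hd : ∀ i, ‖((e i i : P) : F)‖ ≤ 1 := by
    intro i
    have h1 : ‖((e i i : P) : F)‖ * ‖((e i i : P) : F)‖ ≤ 1 * ‖((e i i : P) : F)‖ := by
      rw [← CStarRing.norm_star_mul_self]
      have h2 : star ((e i i : P) : F) * ((e i i : P) : F) = ((p 1 : P) : F) * ((e i i : P) : F) := by
        have h3 := hmul i i i i rfl
        have h4 := congrArg (fun z : P => (z : F)) h3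
        have h5 := congrArg (fun z : P => (z : F)) (hstar i i)
        have h6 : star ((e i i : P) : F) = ((e i i : P) : F) := h5
        rw [h6]
        exact h4
      rw [h2]
      refine (norm_mul_le _ _).trans ?_
      exact mul_le_mul_of_nonneg_right hn (norm_nonneg _)
    by_contra hcon
    push Not at hcon
    have : 0 < ‖((e i i : P) : F)‖ := by linarith
    have := le_of_mul_le_mul_right h1 this
    linarith
  refine ⟨e 0 1, e 0 0, e 1 1, s, ⟨(e 0 1).2, (e 0 0).2, (e 1 1).2, s.2⟩, ?_, ?_, hd 0, hd 1, ?_⟩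
  · refine ⟨?_, ?_, ?_, ?_, ?_⟩
    · exact congrArg (fun z : P => (z : F)) (hmul0 0 1 0 1 (by decide))
    · have h1 : e 0 1 * star (e 0 1) + star (e 0 1) * e 0 1
          = (e 0 0 + e 1 1) * (e 0 0 + e 1 1) := by
        rw [hstar, hmul 0 1 1 0 rfl, hmul 1 0 0 1 rfl, ← mul_add, hone]
      exact congrArg (fun z : P => (z : F)) h1
    · exact congrArg (fun z : P => (z : F)) (hmul0 0 0 1 1 (by decide))
    · exact congrArg (fun z : P => (z : F)) hs
    · rw [hone] at hs1
      exact congrArg (fun z : P => (z : F)) hs1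
  · have h1 : ‖((e 0 1 : P) : F)‖ * ‖((e 0 1 : P) : F)‖ ≤ 1 := by
      rw [← CStarRing.norm_star_mul_self]
      have h2 : star ((e 0 1 : P) : F) * ((e 0 1 : P) : F) = ((p 1 : P) : F) * ((e 1 1 : P) : F) := by
        have h3 : star (e 0 1) * e 0 1 = p 1 * e 1 1 := by rw [hstar, hmul 1 0 0 1 rfl]
        exact congrArg (fun z : P => (z : F)) h3
      rw [h2]
      refine (norm_mul_le _ _).trans ?_
      exact mul_le_one₀ hn (norm_nonneg _) (hd 1)
    nlinarith [norm_nonneg ((e 0 1 : P) : F)]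
  · have h1 : ‖(s : F)‖ * ‖(s : F)‖ ≤ 1 := by
      rw [← CStarRing.norm_star_mul_self]
      have h2 : star (s : F) * (s : F) = 1 - ((p 1 : P) : F) :=
        congrArg (fun z : P => (z : F)) hs1
      rw [h2]
      exact hn'
    nlinarith [norm_nonneg (s : F)]

end Vale.Agent.P095
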