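import Vale.Agent.P095.EqUlt
import Vale.Agent.P101.DimDropDef

/-!
# P095: definitions of the final statement
-/

open Filter Topology BoundedContinuousFunction

namespace Vale.Agent.P095

open Vale.Agent.P101 Vale.Agent.P101.UltA

universe u v

/-- The classes in the ultrapower `A_ω` of the bounded sequences `(a_n)` with
`‖α_g(a_n) - a_n‖ → 0` along `ω` for all `g ∈ H`. -/
def FixedSet (ω : Ultrafilter ℕ) {A : Type u} [CStarAlgebra A] {G : Type v} [Group G]
    (α : G →* (A ≃⋆ₐ[ℂ] A)) (H : Subgroup G) : Set (Ultrapower ω A) :=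
  {x | ∀ a : ℕ →ᵇ A, (RingCon.toQuotient a : Ultrapower ω A) = x →
    ∀ g ∈ H, Tendsto (fun n => ‖α g (a n) - a n‖) ω (𝓝 0)}

theorem mem_fixedSet_iff (ω : Ultrafilter ℕ) {A : Type u} [CStarAlgebra A] {G : Type v} [Group G]
    (α : G →* (A ≃⋆ₐ[ℂ] A)) (H : Subgroup G) (x : Ultrapower ω A) :
    x ∈ FixedSet ω α H ↔ ∀ g ∈ H, ultraMap ω (α g) x = x := by
  constructor
  · intro h g hg
    obtain ⟨a, rfl⟩ := mk_surj ω A x
    exact (cl_eq ω (a := seqMap (α g) a) (b := a)).2 (h a rfl g hg)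
  · rintro h a rfl g hg
    exact (cl_eq ω (a := seqMap (α g) a) (b := a)).1 (h g hg)

/-- The star subalgebra of `A_ω` with carrier `FixedSet`. -/
noncomputable def FixedAlg (ω : Ultrafilter ℕ) {A : Type u} [CStarAlgebra A] {G : Type v} [Group G]
    (α : G →* (A ≃⋆ₐ[ℂ] A)) (H : Subgroup G) : StarSubalgebra ℂ (Ultrapower ω A) where
  carrier := FixedSet ω α H
  mul_mem' := by
    intro x y hx hy
    rw [mem_fixedSet_iff] at hx hy ⊢
    intro g hg
    rw [map_mul, hx g hg, hy g hg]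
  one_mem' := by
    rw [mem_fixedSet_iff]
    exact fun g _ => map_one _
  add_mem' := by
    intro x y hx hy
    rw [mem_fixedSet_iff] at hx hy ⊢
    intro g hg
    rw [map_add, hx g hg, hy g hg]
  zero_mem' := by
    rw [mem_fixedSet_iff]
    exact fun g _ => map_zero _
  algebraMap_mem' := by
    intro c
    rw [mem_fixedSet_iff]
    exact fun g _ => AlgHomClass.commutes _ c
  star_mem' := by
    intro x hx
    rw [mem_fixedSet_iff] at hx ⊢
    intro g hg
    rw [map_star, hx g hg]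

/-- `F_ω(A)^{α|H}`: the part of the central sequence algebra `F_ω(A)` that is fixed by `α_g` for
all `g ∈ H`.  For `H = ⊥` this is `F_ω(A)` and for `H = ⊤` it is `F_ω(A)^α`. -/
noncomputable def FixCen (ω : Ultrafilter ℕ) {A : Type u} [CStarAlgebra A] {G : Type v} [Group G]
    (α : G →* (A ≃⋆ₐ[ℂ] A)) (H : Subgroup G) : StarSubalgebra ℂ (Ultrapower ω A) :=
  CentralSeq ω A ⊓ FixedAlg ω α H

/-- `F_ω(A)^{α|H}` has no characters -/
def NoCharacters (ω : Ultrafilter ℕ) {A : Type u} [CStarAlgebra A] {G : Type v} [Group G]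
    (α : G →* (A ≃⋆ₐ[ℂ] A)) (H : Subgroup G) : Prop :=
  IsEmpty (FixCen ω α H →⋆ₐ[ℂ] ℂ)

/-- every dimension drop algebra `I(k, k+1)`, `k ≥ 2`, maps unitally into `F_ω(A)^{α|H}` -/
def DimDropsEmbed (ω : Ultrafilter ℕ) {A : Type u} [CStarAlgebra A] {G : Type v} [Group G]
    (α : G →* (A ≃⋆ₐ[ℂ] A)) (H : Subgroup G) : Prop :=
  ∀ n, Nonempty (DimDrop (n + 2) (n + 3) →⋆ₐ[ℂ] FixCen ω α H)

theorem fixCen_eq (ω : Ultrafilter ℕ) {A : Type u} [CStarAlgebra A] {G : Type v} [Group G]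
    (α : G →* (A ≃⋆ₐ[ℂ] A)) (H : Subgroup G) :
    FixCen ω α H = FixCentral ω (α.comp H.subtype) := by
  ext x
  constructor
  · rintro ⟨h1, h2⟩
    refine ⟨h1, fun g => ?_⟩
    exact (mem_fixedSet_iff ω α H x).1 h2 g g.2
  · rintro ⟨h1, h2⟩
    refine ⟨h1, ?_⟩
    exact (mem_fixedSet_iff ω α H x).2 fun g hg => h2 ⟨g, hg⟩

end Vale.Agent.P095
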