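import Vale.Agent.P095.EqUlt

/-!
# P095: algebraic module statements
-/

namespace Vale.Agent.P095

open Vale.Agent.P101

universe u v

/-- the fixed point algebra -/
def fixAlg (F : Type u) [CStarAlgebra F] {ι : Type v} (β : ι → (F ≃⋆ₐ[ℂ] F)) :
    StarSubalgebra ℂ F where
  carrier := {x | ∀ i, β i x = x}
  mul_mem' := fun hx hy i => by rw [map_mul, hx i, hy i]
  one_mem' := fun i => map_one _
  add_mem' := fun hx hy i => by rw [map_add, hx i, hy i]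
  zero_mem' := fun i => map_zero _
  algebraMap_mem' := fun c i => AlgHomClass.commutes _ c
  star_mem' := fun hx i => by rw [map_star, hx i]

lemma mem_fixAlg {F : Type u} [CStarAlgebra F] {ι : Type v} {β : ι → (F ≃⋆ₐ[ℂ] F)} {x : F} :
    x ∈ fixAlg F β ↔ ∀ i, β i x = x := Iff.rfl

/-- every countable invariant subset of `F` has `K` pairwise commuting equivariant copies -/
def EqCopies (F : Type u) [CStarAlgebra F] {ι : Type v} (β : ι → (F ≃⋆ₐ[ℂ] F)) : Prop :=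
  ∀ S : Set F, S.Countable → (∀ g, ∀ x ∈ S, β g x ∈ S) → ∀ K : ℕ,
    ∃ κ : Fin K → ((StarAlgebra.adjoin ℂ S) →⋆ₐ[ℂ] F),
      (∀ l l', l ≠ l' → ∀ x y, κ l x * κ l' y = κ l' y * κ l x) ∧
      ∀ l (g : ι) (x y : StarAlgebra.adjoin ℂ S), (y : F) = β g x → κ l y = β g (κ l x)

/-- iteration of `EqSelfComm` -/
def S_EQCOP : Prop := ∀ (F : Type u) [CStarAlgebra F] (ι : Type v) (β : ι → (F ≃⋆ₐ[ℂ] F)),
  EqSelfComm F β → EqCopies F β

/-- the case of the cyclic group of prime order -/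
def S_ZP : Prop := ∀ (F : Type u) [CStarAlgebra F] (p : ℕ), p.Prime → ∀ b : F ≃⋆ₐ[ℂ] F,
  b ^ p = 1 → EqCopies F (fun _ : Unit => b) → IsEmpty (F →⋆ₐ[ℂ] ℂ) →
  IsEmpty (fixAlg F (fun _ : Unit => b) →⋆ₐ[ℂ] ℂ)

/-- induction over a composition series -/
def S_SOLV : Prop := ∀ (G : Type v) [Group G] [Finite G] [Group.IsSolvable G] (F : Type u)
  [CStarAlgebra F] (β : G →* (F ≃⋆ₐ[ℂ] F)), EqSelfComm F (fun g => β g) →
  IsEmpty (F →⋆ₐ[ℂ] ℂ) → IsEmpty (fixAlg F (fun g => β g) →⋆ₐ[ℂ] ℂ)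

/-- the fixed point algebra is again a C*-algebra with commuting copies -/
def S_FIXSC : Prop := ∀ (F : Type u) [CStarAlgebra F] (ι : Type v) (β : ι → (F ≃⋆ₐ[ℂ] F)),
  EqSelfComm F β → ∃ (E : Type u) (_ : CStarAlgebra E), Nonempty (E ≃⋆ₐ[ℂ] fixAlg F β) ∧
    SelfComm E

end Vale.Agent.P095
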