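import Vale.Agent.P101.UltraDef

/-!
# P095: the fixed point algebra of the central sequence algebra
-/

open Filter Topology BoundedContinuousFunction

namespace Vale.Agent.P095

open Vale.Agent.P101

universe u v

/-- an automorphism of `A` applied entrywise to a bounded sequence -/
noncomputable def seqMap {A : Type u} [CStarAlgebra A] (φ : A ≃⋆ₐ[ℂ] A) (a : ℕ →ᵇ A) : ℕ →ᵇ A :=
  BoundedContinuousFunction.ofNormedAddCommGroupDiscrete (fun n => φ (a n)) ‖a‖ fun n => by
    rw [StarAlgEquiv.norm_map]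
    exact a.norm_coe_le_norm n

lemma seqMap_apply {A : Type u} [CStarAlgebra A] (φ : A ≃⋆ₐ[ℂ] A) (a : ℕ →ᵇ A) (n : ℕ) :
    seqMap φ a n = φ (a n) := rfl

lemma ultraCon_seqMap (ω : Ultrafilter ℕ) {A : Type u} [CStarAlgebra A] (φ : A ≃⋆ₐ[ℂ] A)
    (a b : ℕ →ᵇ A) (h : ultraCon ω A a b) : ultraCon ω A (seqMap φ a) (seqMap φ b) := by
  change Tendsto _ _ _ at h
  change Tendsto _ _ _
  convert h using 2 with n
  rw [seqMap_apply, seqMap_apply, ← map_sub, StarAlgEquiv.norm_map]

/-- the automorphism of the ultrapower induced by an automorphism of `A` -/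
noncomputable def ultraMap (ω : Ultrafilter ℕ) {A : Type u} [CStarAlgebra A] (φ : A ≃⋆ₐ[ℂ] A) :
    Ultrapower ω A →⋆ₐ[ℂ] Ultrapower ω A where
  toFun := Quotient.map' (seqMap φ) (ultraCon_seqMap ω φ)
  map_one' := by
    change (RingCon.toQuotient (seqMap φ 1) : Ultrapower ω A) = RingCon.toQuotient 1
    congr 1
    ext n
    exact map_one φ
  map_mul' x y := by
    obtain ⟨a, rfl⟩ := mk_surj ω A x
    obtain ⟨b, rfl⟩ := mk_surj ω A y
    change (RingCon.toQuotient (seqMap φ (a * b)) : Ultrapower ω A)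
      = RingCon.toQuotient (seqMap φ a * seqMap φ b)
    congr 1
    ext n
    exact map_mul φ _ _
  map_zero' := by
    change (RingCon.toQuotient (seqMap φ 0) : Ultrapower ω A) = RingCon.toQuotient 0
    congr 1
    ext n
    exact map_zero φ
  map_add' x y := by
    obtain ⟨a, rfl⟩ := mk_surj ω A x
    obtain ⟨b, rfl⟩ := mk_surj ω A y
    change (RingCon.toQuotient (seqMap φ (a + b)) : Ultrapower ω A)
      = RingCon.toQuotient (seqMap φ a + seqMap φ b)
    congr 1
    ext n
    exact map_add φ _ _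
  commutes' c := by
    change (RingCon.toQuotient (seqMap φ (algebraMap ℂ (ℕ →ᵇ A) c)) : Ultrapower ω A)
      = RingCon.toQuotient (algebraMap ℂ (ℕ →ᵇ A) c)
    congr 1
    ext n
    exact AlgHomClass.commutes φ c
  map_star' x := by
    obtain ⟨a, rfl⟩ := mk_surj ω A x
    change (RingCon.toQuotient (seqMap φ (star a)) : Ultrapower ω A)
      = RingCon.toQuotient (star (seqMap φ a))
    congr 1
    ext n
    exact map_star φ _

/-- The fixed point algebra `F_ω(A)^α` of the central sequence algebra under the action induced by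
`α`: classes of central sequences `(x_n)` with `‖α_g(x_n) - x_n‖ → 0` along `ω` for all `g`. -/
noncomputable def FixCentral (ω : Ultrafilter ℕ) {A : Type u} [CStarAlgebra A] {G : Type v}
    [Group G] (α : G →* (A ≃⋆ₐ[ℂ] A)) : StarSubalgebra ℂ (Ultrapower ω A) where
  carrier := {x | x ∈ CentralSeq ω A ∧ ∀ g, ultraMap ω (α g) x = x}
  mul_mem' := fun hx hy => ⟨mul_mem hx.1 hy.1, fun g => by rw [map_mul, hx.2 g, hy.2 g]⟩
  one_mem' := ⟨one_mem _, fun g => map_one _⟩
  add_mem' := fun hx hy => ⟨add_mem hx.1 hy.1, fun g => by rw [map_add, hx.2 g, hy.2 g]⟩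
  zero_mem' := ⟨zero_mem _, fun g => map_zero _⟩
  algebraMap_mem' := fun c => ⟨algebraMap_mem _ c, fun g => AlgHomClass.commutes _ c⟩
  star_mem' := fun hx => ⟨star_mem hx.1, fun g => by rw [map_star, hx.2 g]⟩

end Vale.Agent.P095
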