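import Vale.Agent.P095.EqDef
import Vale.Agent.P101.UltB

/-!
# P095: equivariant commuting copies in the central sequence algebra
-/

open Filter Topology BoundedContinuousFunction

namespace Vale.Agent.P095

open Vale.Agent.P101 Vale.Agent.P101.UltA

universe u v

/-- every countable invariant subset of `F` has an equivariant commuting copy -/
def EqSelfComm (F : Type u) [CStarAlgebra F] {ι : Type v} (β : ι → (F ≃⋆ₐ[ℂ] F)) : Prop :=
  ∀ S : Set F, S.Countable → (∀ g, ∀ x ∈ S, β g x ∈ S) →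
    ∃ κ : (StarAlgebra.adjoin ℂ S) →⋆ₐ[ℂ] F,
      (∀ x y : StarAlgebra.adjoin ℂ S, κ x * (y : F) = (y : F) * κ x) ∧
      ∀ (g : ι) (x y : StarAlgebra.adjoin ℂ S), (y : F) = β g x → κ y = β g (κ x)

section

variable (ω : Ultrafilter ℕ) {A : Type u} [CStarAlgebra A]

lemma ultraMap_cl (φ : A ≃⋆ₐ[ℂ] A) (a : ℕ →ᵇ A) : ultraMap ω φ (cl ω a) = cl ω (seqMap φ a) := rfl

lemma ultraMap_mul (φ ψ : A ≃⋆ₐ[ℂ] A) (x : Ultrapower ω A) :
    ultraMap ω (φ * ψ) x = ultraMap ω φ (ultraMap ω ψ x) := by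
  obtain ⟨a, rfl⟩ := mk_surj ω A x
  rfl

lemma ultraMap_one (x : Ultrapower ω A) : ultraMap ω (1 : A ≃⋆ₐ[ℂ] A) x = x := by
  obtain ⟨a, rfl⟩ := mk_surj ω A x
  rfl

lemma ultraMap_const (φ : A ≃⋆ₐ[ℂ] A) (c : A) :
    ultraMap ω φ (constSeq ω c) = constSeq ω (φ c) := rfl

lemma ultraMap_central (φ : A ≃⋆ₐ[ℂ] A) {x : Ultrapower ω A} (hx : x ∈ CentralSeq ω A) :
    ultraMap ω φ x ∈ CentralSeq ω A := by
  rw [mem_central'] at hx ⊢
  intro c
  have h1 : constSeq ω c = ultraMap ω φ (constSeq ω (φ.symm c)) := by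
    rw [ultraMap_const, StarAlgEquiv.apply_symm_apply]
  rw [h1, ← map_mul, ← map_mul, hx]

variable {G : Type v} [Group G] (α : G →* (A ≃⋆ₐ[ℂ] A))

/-- the action on the central sequence algebra -/
noncomputable def act : G →* (FF ω A ≃⋆ₐ[ℂ] FF ω A) where
  toFun g :=
    { toFun := fun x => ⟨ultraMap ω (α g) x, ultraMap_central ω _ x.2⟩
      invFun := fun x => ⟨ultraMap ω (α g⁻¹) x, ultraMap_central ω _ x.2⟩
      left_inv := fun x => Subtype.ext (by
        change ultraMap ω (α g⁻¹) (ultraMap ω (α g) x) = x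
        rw [← ultraMap_mul, ← map_mul, inv_mul_cancel, map_one, ultraMap_one])
      right_inv := fun x => Subtype.ext (by
        change ultraMap ω (α g) (ultraMap ω (α g⁻¹) x) = x
        rw [← ultraMap_mul, ← map_mul, mul_inv_cancel, map_one, ultraMap_one])
      map_mul' := fun x y => Subtype.ext (map_mul (ultraMap ω (α g)) _ _)
      map_add' := fun x y => Subtype.ext (map_add (ultraMap ω (α g)) _ _)
      map_star' := fun x => Subtype.ext (map_star (ultraMap ω (α g)) _)
      map_smul' := fun c x => Subtype.ext (map_smul (ultraMap ω (α g)) c _) }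
  map_one' := by
    ext x
    change ultraMap ω (α 1) x = x
    rw [map_one, ultraMap_one]
  map_mul' g h := by
    ext x
    change ultraMap ω (α (g * h)) x = ultraMap ω (α g) (ultraMap ω (α h) x)
    rw [map_mul, ultraMap_mul]

lemma act_coe (g : G) (x : FF ω A) : ((act ω α g x : FF ω A) : Ultrapower ω A)
    = ultraMap ω (α g) x := rfl

/-- `seqMap` as a star homomorphism -/
noncomputable def seqHom (φ : A ≃⋆ₐ[ℂ] A) : (ℕ →ᵇ A) →⋆ₐ[ℂ] (ℕ →ᵇ A) where
  toFun := seqMap φ
  map_one' := by ext n; exact map_one φ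
  map_mul' a b := by ext n; exact map_mul φ _ _
  map_zero' := by ext n; exact map_zero φ
  map_add' a b := by ext n; exact map_add φ _ _
  commutes' c := by ext n; exact AlgHomClass.commutes φ c
  map_star' a := by ext n; exact map_star φ _

lemma re_seqMap (φ : A ≃⋆ₐ[ℂ] A) (m : ℕ → ℕ) (a : ℕ →ᵇ A) :
    seqMap φ (re m a) = re m (seqMap φ a) := rfl

theorem eqSelfComm [Countable G] [TopologicalSpace.SeparableSpace A]
    (hω : (ω : Filter ℕ) ≤ Filter.cofinite) :
    @EqSelfComm (FF ω A) (cs ω) G (fun g => act ω α g) := by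
  let _ := cs ω (A := A)
  intro S hS hinv
  obtain ⟨s, hs⟩ := (hS.insert 0).exists_eq_range ⟨0, Set.mem_insert _ _⟩
  have hSs : S ⊆ Set.range s := by
    rw [← hs]; exact Set.subset_insert _ _
  choose t0 ht0 using fun i => mk_surj ω A (s i : Ultrapower ω A)
  -- the lifts and their translates
  have hTc : (Set.range fun p : G × ℕ => seqMap (α p.1) (t0 p.2)).Countable :=
    Set.countable_range _
  obtain ⟨t, ht⟩ := hTc.exists_eq_range (Set.range_nonempty _)
  have htf : ∀ (g : G) (i : ℕ), seqMap (α g) (t0 i) ∈ Set.range t := by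
    intro g i
    rw [← ht]
    exact ⟨(g, i), rfl⟩
  have htb : ∀ j, ∃ (g : G) (i : ℕ), t j = seqMap (α g) (t0 i) := by
    intro j
    have : t j ∈ Set.range t := ⟨j, rfl⟩
    rw [← ht] at this
    obtain ⟨p, hp⟩ := this
    exact ⟨p.1, p.2, hp.symm⟩
  have ht0r : ∀ i, t0 i ∈ Set.range t := by
    intro i
    have := htf 1 i
    rw [map_one] at this
    have h2 : seqMap (1 : A ≃⋆ₐ[ℂ] A) (t0 i) = t0 i := by ext n; rfl
    rwa [h2] at this
  set L : StarSubalgebra ℂ (ℕ →ᵇ A) := StarAlgebra.adjoin ℂ (Set.range t) with hL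
  have hLc : ∀ a ∈ L, cl ω a ∈ CentralSeq ω A := by
    have h1 : L ≤ Lc ω := by
      apply StarAlgebra.adjoin_le
      rintro _ ⟨j, rfl⟩
      obtain ⟨g, i, hgi⟩ := htb j
      change cl ω (t j) ∈ CentralSeq ω A
      rw [hgi, ← ultraMap_cl]
      apply ultraMap_central
      have h2 : cl ω (t0 i) = (s i : Ultrapower ω A) := ht0 i
      rw [h2]
      exact (s i).2
    exact fun a ha => h1 ha
  have hLinv : ∀ (g : G), ∀ a ∈ L, seqMap (α g) a ∈ L := by
    intro g
    have h1 : L ≤ L.comap (seqHom (α g)) := by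
      apply StarAlgebra.adjoin_le
      rintro _ ⟨j, rfl⟩
      obtain ⟨h, i, hgi⟩ := htb j
      change seqMap (α g) (t j) ∈ L
      rw [hgi]
      have h2 : seqMap (α g) (seqMap (α h) (t0 i)) = seqMap (α (g * h)) (t0 i) := by
        rw [map_mul]; rfl
      rw [h2]
      exact StarAlgebra.subset_adjoin ℂ _ (htf _ _)
    exact fun a ha => h1 ha
  obtain ⟨m, hm1, hm2, hm3⟩ := reindex ω hω (L : Set (ℕ →ᵇ A)) (zero_mem L)
    (isSeparable_adjoin t) hLc
  have hwd : ∀ a ∈ L, ∀ b ∈ L, cl ω a = cl ω b → cl ω (re m a) = cl ω (re m b) := by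
    intro a ha b hb hab
    have h1 := hm1 (a - b) (sub_mem ha hb)
    rw [re_sub, cl_sub, cl_sub, hab, sub_self, nrm_zero] at h1
    rw [← sub_eq_zero]
    exact eq_zero_of_nrm ω (le_antisymm h1 (nrm_nonneg ω _))
  -- the elements of the adjoin have lifts in `L`
  let D' : StarSubalgebra ℂ (FF ω A) :=
    { carrier := {x | ∃ a ∈ L, cl ω a = (x : Ultrapower ω A)}
      mul_mem' := by
        rintro x y ⟨a, ha, hax⟩ ⟨b, hb, hby⟩
        refine ⟨a * b, mul_mem ha hb, ?_⟩
        rw [cl_mul, hax, hby]; rfl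
      add_mem' := by
        rintro x y ⟨a, ha, hax⟩ ⟨b, hb, hby⟩
        refine ⟨a + b, add_mem ha hb, ?_⟩
        rw [cl_add, hax, hby]; rfl
      algebraMap_mem' := by
        intro c
        refine ⟨algebraMap ℂ _ c, algebraMap_mem L c, ?_⟩
        rfl
      star_mem' := by
        rintro x ⟨a, ha, hax⟩
        refine ⟨star a, star_mem ha, ?_⟩
        rw [cl_star, hax]; rfl }
  have hD : StarAlgebra.adjoin ℂ S ≤ D' := by
    apply StarAlgebra.adjoin_le
    intro x hx
    obtain ⟨i, hi⟩ := hSs hx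
    refine ⟨t0 i, StarAlgebra.subset_adjoin ℂ _ (ht0r i), ?_⟩
    rw [← hi]
    exact ht0 i
  have hlift : ∀ x : StarAlgebra.adjoin ℂ S, ∃ a ∈ L, cl ω a = ((x : FF ω A) : Ultrapower ω A) :=
    fun x => hD x.2
  choose l hlL hl using hlift
  let κ0 : StarAlgebra.adjoin ℂ S → FF ω A := fun x => ⟨cl ω (re m (l x)), hm2 _ (hlL x)⟩
  have hκ : ∀ (x : StarAlgebra.adjoin ℂ S) (a : ℕ →ᵇ A), a ∈ L →
      cl ω a = ((x : FF ω A) : Ultrapower ω A) → ((κ0 x : FF ω A) : Ultrapower ω A) = cl ω (re m a) :=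
    fun x a ha hax => hwd _ (hlL x) _ ha ((hl x).trans hax.symm)
  let κ : StarAlgebra.adjoin ℂ S →⋆ₐ[ℂ] FF ω A :=
    { toFun := κ0
      map_one' := by
        apply Subtype.ext
        rw [hκ 1 1 (one_mem L) rfl]
        rfl
      map_mul' := by
        intro x y
        apply Subtype.ext
        rw [hκ (x * y) (l x * l y) (mul_mem (hlL x) (hlL y)) (by rw [cl_mul, hl, hl]; rfl)]
        rfl
      map_zero' := by
        apply Subtype.ext
        rw [hκ 0 0 (zero_mem L) rfl]
        rfl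
      map_add' := by
        intro x y
        apply Subtype.ext
        rw [hκ (x + y) (l x + l y) (add_mem (hlL x) (hlL y)) (by rw [cl_add, hl, hl]; rfl)]
        rfl
      commutes' := by
        intro c
        apply Subtype.ext
        rw [hκ (algebraMap ℂ _ c) (algebraMap ℂ _ c) (algebraMap_mem L c) rfl]
        rfl
      map_star' := by
        intro x
        apply Subtype.ext
        rw [hκ (star x) (star (l x)) (star_mem (hlL x)) (by rw [cl_star, hl]; rfl)]
        rfl }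
  refine ⟨κ, fun x y => ?_, fun g x y hxy => ?_⟩
  · apply Subtype.ext
    change cl ω (re m (l x)) * ((y : FF ω A) : Ultrapower ω A)
      = ((y : FF ω A) : Ultrapower ω A) * cl ω (re m (l x))
    rw [← hl y]
    exact hm3 _ (hlL x) _ (hlL y)
  · apply Subtype.ext
    change ((κ0 y : FF ω A) : Ultrapower ω A) = cl ω (seqMap (α g) (re m (l x)))
    rw [re_seqMap]
    refine hκ y (seqMap (α g) (l x)) (hLinv g _ (hlL x)) ?_
    rw [← ultraMap_cl, hl x]
    have := congrArg (fun z : FF ω A => (z : Ultrapower ω A)) hxy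
    exact this.symm

end

end Vale.Agent.P095
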