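import Vale.Agent.P095.EqAlg

/-!
# P095: iteration of equivariant commuting copies
-/

namespace Vale.Agent.P095

open Vale.Agent.P101

universe u v

theorem eqcop : S_EQCOP.{u, v} := by
  intro F _ ι β hF S hS hinv K
  induction K with
  | zero => exact ⟨Fin.elim0, fun l => l.elim0, fun l => l.elim0⟩
  | succ K ih =>
    obtain ⟨κ, hκ, hκe⟩ := ih
    set gen : S → StarAlgebra.adjoin ℂ S := fun s => ⟨s, StarAlgebra.subset_adjoin ℂ S s.2⟩
      with hgen
    haveI : Countable S := hS.to_subtype
    set T : Set F := S ∪ ⋃ l : Fin K, Set.range fun s : S => κ l (gen s) with hT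
    have hTc : T.Countable := hS.union (Set.countable_iUnion fun l => Set.countable_range _)
    have hTinv : ∀ g, ∀ x ∈ T, β g x ∈ T := by
      intro g x hx
      rcases hx with hx | hx
      · exact Or.inl (hinv g x hx)
      · obtain ⟨l, s, rfl⟩ := Set.mem_iUnion.mp hx
        refine Or.inr (Set.mem_iUnion.mpr ⟨l, ⟨β g s, hinv g s s.2⟩, ?_⟩)
        exact hκe l g (gen s) (gen ⟨β g s, hinv g s s.2⟩) rfl
    obtain ⟨μ, hμ, hμe⟩ := hF T hTc hTinv
    have hST : StarAlgebra.adjoin ℂ S ≤ StarAlgebra.adjoin ℂ T :=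
      StarAlgebra.adjoin_mono Set.subset_union_left
    have hmem : ∀ (l : Fin K) (y : StarAlgebra.adjoin ℂ S), κ l y ∈ StarAlgebra.adjoin ℂ T := by
      intro l
      have hcomap : StarAlgebra.adjoin ℂ (Set.range gen) ≤ (StarAlgebra.adjoin ℂ T).comap (κ l) := by
        refine StarAlgebra.adjoin_le ?_
        rintro _ ⟨s, rfl⟩
        exact StarAlgebra.subset_adjoin ℂ T (Or.inr (Set.mem_iUnion.mpr ⟨l, s, rfl⟩))
      have htop : ∀ y : StarAlgebra.adjoin ℂ S, y ∈ StarAlgebra.adjoin ℂ (Set.range gen) := by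
        rintro ⟨y, hy⟩
        refine StarAlgebra.adjoin_induction
          (p := fun z hz => (⟨z, hz⟩ : StarAlgebra.adjoin ℂ S) ∈
            StarAlgebra.adjoin ℂ (Set.range gen)) ?_ ?_ ?_ ?_ ?_ hy
        · intro z hz
          exact StarAlgebra.subset_adjoin ℂ _ ⟨⟨z, hz⟩, rfl⟩
        · intro r
          exact algebraMap_mem _ r
        · intro z w hz hw hz' hw'
          exact add_mem hz' hw'
        · intro z w hz hw hz' hw'
          exact mul_mem hz' hw'
        · intro z hz hz'
          exact star_mem hz'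
      intro y
      exact hcomap (htop y)
    refine ⟨Fin.cons (μ.comp (StarSubalgebra.inclusion hST)) κ, ?_, ?_⟩
    · intro l l' hll x y
      revert hll
      refine Fin.cases ?_ (fun j => ?_) l
      · refine Fin.cases (fun h => absurd rfl h) (fun j' _ => ?_) l'
        rw [Fin.cons_zero, Fin.cons_succ]
        exact hμ (StarSubalgebra.inclusion hST x) ⟨κ j' y, hmem j' y⟩
      · refine Fin.cases (fun _ => ?_) (fun j' h => ?_) l'
        · rw [Fin.cons_zero, Fin.cons_succ]
          exact (hμ (StarSubalgebra.inclusion hST y) ⟨κ j x, hmem j x⟩).symm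
        · rw [Fin.cons_succ, Fin.cons_succ]
          exact hκ j j' (fun e => h (by rw [e])) x y
    · intro l g x y hxy
      refine Fin.cases ?_ (fun j => ?_) l
      · rw [Fin.cons_zero]
        exact hμe g (StarSubalgebra.inclusion hST x) (StarSubalgebra.inclusion hST y) hxy
      · rw [Fin.cons_succ]
        exact hκe j g x y hxy

end Vale.Agent.P095
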