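import Vale.Agent.P095.Eqcop
import Vale.Agent.P101.Char

/-!
# P095: module FINITE (finite groups)
-/

namespace Vale.Agent.P095

open Vale.Agent.P101

universe u v

namespace FINITE

/-- the fixed points of an algebraic action -/
def fixSub {F : Type u} [Ring F] [Algebra ℂ F] {G : Type v} [Group G] (b : G →* (F ≃ₐ[ℂ] F)) :
    Subalgebra ℂ F where
  carrier := {x | ∀ g, b g x = x}
  mul_mem' := fun hx hy i => by rw [map_mul, hx i, hy i]
  one_mem' := fun i => map_one _
  add_mem' := fun hx hy i => by rw [map_add, hx i, hy i]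
  zero_mem' := fun i => map_zero _
  algebraMap_mem' := fun c i => AlgHomClass.commutes _ c

/-- the algebraic theorem for finite groups -/
def S_FINALG : Prop := ∀ (F : Type u) [Ring F] [Algebra ℂ F] (D : Type u) [Ring D] [Algebra ℂ D]
  (G : Type v) [Group G] [Fintype G] (bF : G →* (F ≃ₐ[ℂ] F)) (bD : G →* (D ≃ₐ[ℂ] D)),
  (∀ M : ℕ, ∃ κ : Fin M → (D →ₐ[ℂ] F),
    (∀ i j, i ≠ j → ∀ x y, κ i x * κ j y = κ j y * κ i x) ∧
      ∀ i g x, κ i (bD g x) = bF g (κ i x)) →
  (fixSub bF →ₐ[ℂ] ℂ) →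
  (1 : D) ∈ Submodule.span ℂ {x : D | ∃ a b c d : D, x = c * (a * b - b * a) * d} → False

/-- the restriction of an action to an invariant subalgebra, as an algebraic action -/
def resAct {F : Type u} [CStarAlgebra F] {G : Type v} [Group G] (β : G →* (F ≃⋆ₐ[ℂ] F))
    (D : StarSubalgebra ℂ F) (hD : ∀ g, ∀ x ∈ D, β g x ∈ D) : G →* (D ≃ₐ[ℂ] D) where
  toFun g :=
    { toFun := fun x => ⟨β g x, hD g x x.2⟩
      invFun := fun x => ⟨β g⁻¹ x, hD g⁻¹ x x.2⟩
      left_inv := fun x => Subtype.ext (by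
        change β g⁻¹ (β g x) = x
        rw [← StarAlgEquiv.mul_apply, ← map_mul, inv_mul_cancel, map_one, StarAlgEquiv.one_apply])
      right_inv := fun x => Subtype.ext (by
        change β g (β g⁻¹ x) = x
        rw [← StarAlgEquiv.mul_apply, ← map_mul, mul_inv_cancel, map_one, StarAlgEquiv.one_apply])
      map_mul' := fun x y => Subtype.ext (map_mul (β g) _ _)
      map_add' := fun x y => Subtype.ext (map_add (β g) _ _)
      commutes' := fun c => Subtype.ext (AlgHomClass.commutes (β g) c) }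
  map_one' := by
    ext x
    change β 1 x = x
    rw [map_one, StarAlgEquiv.one_apply]
  map_mul' g h := by
    ext x
    change β (g * h) x = β g (β h x)
    rw [map_mul, StarAlgEquiv.mul_apply]

/-- a `*`-automorphism action as an algebraic action -/
def toAlg {F : Type u} [CStarAlgebra F] {G : Type v} [Group G] (β : G →* (F ≃⋆ₐ[ℂ] F)) :
    G →* (F ≃ₐ[ℂ] F) where
  toFun g :=
    { toFun := fun x => β g x
      invFun := fun x => β g⁻¹ x
      left_inv := fun x => by
        change β g⁻¹ (β g x) = x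
        rw [← StarAlgEquiv.mul_apply, ← map_mul, inv_mul_cancel, map_one, StarAlgEquiv.one_apply]
      right_inv := fun x => by
        change β g (β g⁻¹ x) = x
        rw [← StarAlgEquiv.mul_apply, ← map_mul, mul_inv_cancel, map_one, StarAlgEquiv.one_apply]
      map_mul' := fun x y => map_mul (β g) _ _
      map_add' := fun x y => map_add (β g) _ _
      commutes' := fun c => AlgHomClass.commutes (β g) c }
  map_one' := by
    ext x
    change β 1 x = x
    rw [map_one, StarAlgEquiv.one_apply]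
  map_mul' g h := by
    ext x
    change β (g * h) x = β g (β h x)
    rw [map_mul, StarAlgEquiv.mul_apply]

/-- the subalgebra generated by an invariant set is invariant -/
lemma adjoin_inv {F : Type u} [CStarAlgebra F] (φ : F ≃⋆ₐ[ℂ] F) (S : Set F)
    (hS : ∀ x ∈ S, φ x ∈ S) : ∀ x ∈ StarAlgebra.adjoin ℂ S, φ x ∈ StarAlgebra.adjoin ℂ S := by
  have h : StarAlgebra.adjoin ℂ S ≤ (StarAlgebra.adjoin ℂ S).comap (φ : F →⋆ₐ[ℂ] F) := by
    refine StarAlgebra.adjoin_le fun x hx => ?_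
    exact StarAlgebra.subset_adjoin ℂ S (hS x hx)
  exact fun x hx => h hx

end FINITE

/-- finite groups -/
def S_FINITE : Prop := ∀ (G : Type v) [Group G] [Finite G] (F : Type u)
  [CStarAlgebra F] (β : G →* (F ≃⋆ₐ[ℂ] F)), EqSelfComm F (fun g => β g) →
  IsEmpty (F →⋆ₐ[ℂ] ℂ) → IsEmpty (fixAlg F (fun g => β g) →⋆ₐ[ℂ] ℂ)

open FINITE in
theorem finite' (hcop : S_EQCOP.{u, v}) (halg : S_FINALG.{u, v}) : S_FINITE.{u, v} := by
  intro G _ _ F _ β hF hchar
  have := Fintype.ofFinite G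
  refine ⟨fun χ => ?_⟩
  obtain ⟨r, a, -, n, idx, b, c, d, hsum⟩ := char F hchar
  set S0 : Set F := Set.range a ∪ Set.range b ∪ Set.range c ∪ Set.range d with hS0
  have hS0c : S0.Countable :=
    (((Set.countable_range a).union (Set.countable_range b)).union (Set.countable_range c)).union
      (Set.countable_range d)
  set S : Set F := ⋃ g : G, (fun x => β g x) '' S0 with hS
  have hSc : S.Countable := Set.countable_iUnion fun g => hS0c.image _
  have hSi : ∀ g, ∀ x ∈ S, β g x ∈ S := by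
    intro g x hx
    obtain ⟨k, s, hs, rfl⟩ := Set.mem_iUnion.mp hx
    refine Set.mem_iUnion.mpr ⟨g * k, s, hs, ?_⟩
    simp only [map_mul, StarAlgEquiv.mul_apply]
  have hS0S : ∀ x ∈ S0, x ∈ StarAlgebra.adjoin ℂ S := by
    intro x hx
    refine StarAlgebra.subset_adjoin ℂ S (Set.mem_iUnion.mpr ⟨1, x, hx, ?_⟩)
    simp only [map_one, StarAlgEquiv.one_apply]
  have hD : ∀ g, ∀ x ∈ StarAlgebra.adjoin ℂ S, β g x ∈ StarAlgebra.adjoin ℂ S :=
    fun g => adjoin_inv (β g) S (hSi g)
  refine halg F (StarAlgebra.adjoin ℂ S) G (toAlg β) (resAct β _ hD) ?_ ?_ ?_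
  · intro M
    obtain ⟨κ, h1, h2⟩ := hcop F G (fun g => β g) hF S hSc hSi M
    refine ⟨fun i => (κ i).toAlgHom, h1, fun i g x => ?_⟩
    exact h2 i g x _ rfl
  · exact
      { toFun := fun x => χ ⟨x.1, x.2⟩
        map_one' := map_one χ
        map_mul' := fun x y => map_mul χ ⟨x.1, x.2⟩ ⟨y.1, y.2⟩
        map_zero' := map_zero χ
        map_add' := fun x y => map_add χ ⟨x.1, x.2⟩ ⟨y.1, y.2⟩
        commutes' := fun z => AlgHomClass.commutes χ z }
  · let a' : Fin (r + 1) → StarAlgebra.adjoin ℂ S :=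
      fun i => ⟨a i, hS0S _ (Or.inl (Or.inl (Or.inl ⟨i, rfl⟩)))⟩
    let b' : Fin n → StarAlgebra.adjoin ℂ S :=
      fun i => ⟨b i, hS0S _ (Or.inl (Or.inl (Or.inr ⟨i, rfl⟩)))⟩
    let c' : Fin n → StarAlgebra.adjoin ℂ S := fun i => ⟨c i, hS0S _ (Or.inl (Or.inr ⟨i, rfl⟩))⟩
    let d' : Fin n → StarAlgebra.adjoin ℂ S := fun i => ⟨d i, hS0S _ (Or.inr ⟨i, rfl⟩)⟩
    have h1 : ∑ j, c' j * (a' (idx j) * b' j - b' j * a' (idx j)) * d' j = 1 := by
      apply Subtype.ext
      rw [AddSubmonoidClass.coe_finsetSum]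
      exact hsum
    rw [← h1]
    refine Submodule.sum_mem _ fun j _ => Submodule.subset_span ?_
    exact ⟨a' (idx j), b' j, c' j, d' j, rfl⟩

end Vale.Agent.P095
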