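import Vale.Agent.P095.Fin3
import Vale.Agent.P095.Finite

/-!
# P095: the finite group theorem
-/

namespace Vale.Agent.P095

universe u v

theorem fin_alg : FINITE.S_FINALG.{u, v} := by
  intro F _ _ D _ _ G _ _ bF bD hcop χ h1
  choose κ hκ using hcop
  refine Fin.fin_alg' (FINITE.fixSub bF) (fun g => (bF g : F →ₐ[ℂ] F)) ?_ ?_ χ κ ?_
    (fun g => (bD g : D →ₐ[ℂ] D)) ?_ ?_ ?_ h1
  · intro g h x
    change bF g (bF h x) = bF (g * h) x
    rw [map_mul]
    rfl
  · intro x
    exact Iff.rfl
  · intro M i j hij x y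
    exact (hκ M).1 i j hij x y
  · intro g h x
    change bD g (bD h x) = bD (g * h) x
    rw [map_mul]
    rfl
  · intro x
    change bD 1 x = x
    rw [map_one]
    rfl
  · intro M g i x
    exact (hκ M).2 i g x

theorem finite : S_FINITE.{u, v} := finite' eqcop fin_alg

end Vale.Agent.P095
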