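import Mathlib

/-!
# P095: auxiliary algebra for the finite group theorem
-/

open Finset

namespace Vale.Agent.P095.Fin

/-- two finite families in a field of characteristic zero with the same power sums -/
theorem mem_of_powerSums {L ι : Type*} [Field L] [CharZero L] [Fintype ι] (a b : ι → L)
    (h : ∀ m : ℕ, 1 ≤ m → ∑ i, a i ^ m = ∑ i, b i ^ m) (i0 : ι) : ∃ j, b j = a i0 := by
  classical
  by_contra hcon
  push Not at hcon
  have hpoly : ∀ q : Polynomial L, ∑ i, q.eval (a i) = ∑ i, q.eval (b i) := by
    intro q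
    induction q using Polynomial.induction_on' with
    | add p q hp hq => simp only [Polynomial.eval_add, sum_add_distrib, hp, hq]
    | monomial n c =>
      simp only [Polynomial.eval_monomial, ← mul_sum]
      rcases Nat.eq_zero_or_pos n with rfl | hn
      · simp
      · rw [h n hn]
  set V : Finset L := ((univ.image a) ∪ (univ.image b)).erase (a i0) with hV
  set q : Polynomial L := ∏ v ∈ V, (Polynomial.X - Polynomial.C v) with hq
  have hev : ∀ x, q.eval x = ∏ v ∈ V, (x - v) := by
    intro x
    rw [hq, Polynomial.eval_prod]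
    simp
  have hb : ∀ j, q.eval (b j) = 0 := by
    intro j
    rw [hev]
    apply prod_eq_zero (i := b j)
    · rw [hV]
      exact mem_erase.2 ⟨hcon j, mem_union_right _ (mem_image_of_mem _ (mem_univ _))⟩
    · exact sub_self _
  have ha : ∀ j, a j ≠ a i0 → q.eval (a j) = 0 := by
    intro j hj
    rw [hev]
    apply prod_eq_zero (i := a j)
    · rw [hV]
      exact mem_erase.2 ⟨hj, mem_union_left _ (mem_image_of_mem _ (mem_univ _))⟩
    · exact sub_self _
  have ha0 : q.eval (a i0) ≠ 0 := by
    rw [hev]
    refine prod_ne_zero_iff.2 fun v hv => ?_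
    rw [hV, mem_erase] at hv
    exact sub_ne_zero.2 (Ne.symm hv.1)
  have h1 := hpoly q
  rw [sum_eq_zero (fun j _ => hb j)] at h1
  have h2 : ∑ i, q.eval (a i) = ((univ.filter fun i => a i = a i0).card : L) * q.eval (a i0) := by
    rw [← sum_filter_add_sum_filter_not univ (fun i => a i = a i0)]
    rw [sum_congr rfl (g := fun _ => q.eval (a i0)), sum_const, nsmul_eq_mul, sum_eq_zero,
      add_zero]
    · intro i hi
      exact ha i (mem_filter.1 hi).2
    · intro i hi
      rw [(mem_filter.1 hi).2]
  rw [h2] at h1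
  rcases mul_eq_zero.1 h1 with h3 | h3
  · have h4 : (univ.filter fun i => a i = a i0).card = 0 := by exact_mod_cast h3
    rw [card_eq_zero] at h4
    have : i0 ∈ univ.filter fun i => a i = a i0 := by simp
    rw [h4] at this
    exact absurd this (notMem_empty _)
  · exact ha0 h3

/-- a vector space over an infinite field is not a finite union of proper subspaces -/
theorem exists_forall_of_cover {k E ι : Type*} [Field k] [Infinite k] [AddCommGroup E]
    [Module k E] [Finite ι] (p : ι → Submodule k E) (h : ∀ x, ∃ i, x ∈ p i) :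
    ∃ i, ∀ x, x ∈ p i := by
  classical
  cases nonempty_fintype ι
  have h1 : ⊤ ∈ univ.image p := by
    apply Subspace.top_mem_of_biUnion_eq_univ
    ext x
    obtain ⟨i, hi⟩ := h x
    simp only [mem_image, mem_univ, true_and, Set.iUnion_exists, Set.iUnion_iUnion_eq',
      Set.mem_iUnion, SetLike.mem_coe, Set.mem_univ, iff_true]
    exact ⟨i, hi⟩
  rw [mem_image] at h1
  obtain ⟨i, _, hi⟩ := h1
  refine ⟨i, fun x => ?_⟩
  rw [hi]
  trivial

/-- step (3) of the proof -/
theorem psi_zero {D L G : Type*} [Ring D] [Algebra ℂ D] [Field L] [Algebra ℂ L] [Group G]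
    [Finite G] (α : G → (D →ₐ[ℂ] D)) (hα : ∀ g h x, α g (α h x) = α (g * h) x)
    (hα1 : ∀ x, α 1 x = x) (ψ : D →ₗ[ℂ] L)
    (h : ∀ y z w, ∃ g : G × G, ψ (y * (α g.2 w * α g.1 z)) = ψ (y * (z * w))) :
    ∀ y z w, ψ (y * (z * w)) = ψ (y * (w * z)) := by
  classical
  -- subspaces in `y`
  have s1 : ∀ z w, ∃ g : G × G, ∀ y, ψ (y * (α g.2 w * α g.1 z)) = ψ (y * (z * w)) := by
    intro z w
    let p : G × G → Submodule ℂ D := fun g => LinearMap.ker
      (ψ ∘ₗ (LinearMap.mulRight ℂ (α g.2 w * α g.1 z)) - ψ ∘ₗ (LinearMap.mulRight ℂ (z * w)))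
    have hp : ∀ g y, y ∈ p g ↔ ψ (y * (α g.2 w * α g.1 z)) = ψ (y * (z * w)) := by
      intro g y
      simp only [p, LinearMap.mem_ker, LinearMap.sub_apply, LinearMap.comp_apply,
        LinearMap.mulRight_apply, sub_eq_zero]
    obtain ⟨g, hg⟩ := exists_forall_of_cover p fun y => by
      obtain ⟨g, hg⟩ := h y z w
      exact ⟨g, (hp g y).2 hg⟩
    exact ⟨g, fun y => (hp g y).1 (hg y)⟩
  have s2 : ∀ z, ∃ g : G × G, ∀ w y, ψ (y * (α g.2 w * α g.1 z)) = ψ (y * (z * w)) := by
    intro z
    let p : G × G → Submodule ℂ D := fun g =>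
      { carrier := {w | ∀ y, ψ (y * (α g.2 w * α g.1 z)) = ψ (y * (z * w))}
        add_mem' := by
          intro w w' hw hw' y
          simp only [map_add, add_mul, mul_add]
          rw [hw y, hw' y]
        zero_mem' := by
          intro y
          simp
        smul_mem' := by
          intro c w hw y
          simp only [map_smul, smul_mul_assoc, mul_smul_comm]
          rw [hw y] }
    obtain ⟨g, hg⟩ := exists_forall_of_cover p fun w => s1 z w
    exact ⟨g, fun w => hg w⟩
  have s3 : ∃ g : G × G, ∀ z w y, ψ (y * (α g.2 w * α g.1 z)) = ψ (y * (z * w)) := by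
    let p : G × G → Submodule ℂ D := fun g =>
      { carrier := {z | ∀ w y, ψ (y * (α g.2 w * α g.1 z)) = ψ (y * (z * w))}
        add_mem' := by
          intro w w' hw hw' y z
          simp only [map_add, add_mul, mul_add]
          rw [hw y, hw' y]
        zero_mem' := by
          intro y z
          simp
        smul_mem' := by
          intro c w hw y z
          simp only [map_smul, smul_mul_assoc, mul_smul_comm]
          rw [hw y] }
    obtain ⟨g, hg⟩ := exists_forall_of_cover p fun w => s2 w
    exact ⟨g, fun w => hg w⟩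
  obtain ⟨⟨g, k⟩, hgk⟩ := s3
  have e1 : ∀ y z, ψ (y * α g z) = ψ (y * z) := by
    intro y z
    have := hgk z 1 y
    simpa using this
  have e2 : ∀ y w, ψ (y * α k w) = ψ (y * w) := by
    intro y w
    have := hgk 1 w y
    simpa using this
  intro y z w
  have f1 := hgk z w y
  simp only at f1
  rw [← f1, ← mul_assoc, e1 (y * α k w) z]
  have f2 : α k (w * α k⁻¹ z) = α k w * z := by
    rw [map_mul, hα, mul_inv_cancel, hα1]
  rw [mul_assoc, ← f2, e2 y, ← mul_assoc]
  have f3 := e2 (y * w) (α k⁻¹ z)
  rw [hα, mul_inv_cancel, hα1] at f3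
  rw [← f3, mul_assoc]

/-- families with the same multiset of values differ by a permutation -/
theorem exists_perm_of_map_eq {ι D : Type*} [Fintype ι] (f f' : ι → D)
    (h : univ.val.map f = univ.val.map f') : ∃ τ : Equiv.Perm ι, f' ∘ τ = f := by
  classical
  have hc : ∀ d, Fintype.card {i // f i = d} = Fintype.card {i // f' i = d} := by
    intro d
    have h1 : ∀ e : ι → D, Fintype.card {i // e i = d} = Multiset.count d (univ.val.map e) := by
      intro e
      rw [Multiset.count_map, Fintype.card_subtype]
      change _ = Multiset.card (Multiset.filter (fun i => d = e i) univ.val)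
      rw [Finset.card_def, Finset.filter_val]
      congr 1
      apply Multiset.filter_congr
      intro x _
      exact eq_comm
    rw [h1, h1, h]
  refine ⟨Equiv.ofFiberEquiv fun d => Fintype.equivOfCardEq (hc d), ?_⟩
  ext i
  exact Equiv.ofFiberEquiv_map _ i

end Vale.Agent.P095.Fin
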