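import Vale.Agent.P095.Fin1

/-!
# P095: the symmetric functional
-/

open Finset Filter

namespace Vale.Agent.P095.Fin

section functional

variable {F G : Type*} [Ring F] [Algebra ℂ F] [Group G] [Fintype G]

/-- the sum over the group, as a linear map into the fixed points -/
noncomputable def grpSum (P : Subalgebra ℂ F) (bF : G → (F →ₐ[ℂ] F))
    (hFm : ∀ g h x, bF g (bF h x) = bF (g * h) x) (hP : ∀ x, x ∈ P ↔ ∀ g, bF g x = x) :
    F →ₗ[ℂ] P where
  toFun b := ⟨∑ g, bF g b, (hP _).2 fun h => by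
    rw [map_sum, ← Equiv.sum_comp (Equiv.mulLeft h) (fun g => bF g b)]
    exact sum_congr rfl fun g _ => hFm h g b⟩
  map_add' x y := Subtype.ext (by
    change ∑ g, bF g (x + y) = ∑ g, bF g x + ∑ g, bF g y
    rw [← sum_add_distrib]
    exact sum_congr rfl fun g _ => map_add _ _ _)
  map_smul' c x := Subtype.ext (by
    change ∑ g, bF g (c • x) = c • ∑ g, bF g x
    rw [smul_sum]
    exact sum_congr rfl fun g _ => map_smul _ _ _)

variable {P : Subalgebra ℂ F} {bF : G → (F →ₐ[ℂ] F)}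
    {hFm : ∀ g h x, bF g (bF h x) = bF (g * h) x} {hP : ∀ x, x ∈ P ↔ ∀ g, bF g x = x}

lemma grpSum_coe (b : F) : ((grpSum P bF hFm hP b : P) : F) = ∑ g, bF g b := rfl

/-- the functional `T = χ ∘ E` -/
noncomputable def TT (P : Subalgebra ℂ F) (bF : G → (F →ₐ[ℂ] F))
    (hFm : ∀ g h x, bF g (bF h x) = bF (g * h) x) (hP : ∀ x, x ∈ P ↔ ∀ g, bF g x = x)
    (χ : P →ₐ[ℂ] ℂ) : F →ₗ[ℂ] ℂ :=
  ((Fintype.card G : ℂ)⁻¹) • (χ.toLinearMap ∘ₗ grpSum P bF hFm hP)

variable {χ : P →ₐ[ℂ] ℂ}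

lemma TT_apply (b : F) : TT P bF hFm hP χ b = (Fintype.card G : ℂ)⁻¹ * χ (grpSum P bF hFm hP b) :=
  rfl

lemma TT_one : TT P bF hFm hP χ 1 = 1 := by
  have h1 : grpSum P bF hFm hP 1 = ((Fintype.card G : ℂ)) • (1 : P) := by
    apply Subtype.ext
    rw [grpSum_coe]
    simp only [map_one, sum_const, card_univ, nsmul_eq_mul, mul_one]
    change _ = (Fintype.card G : ℂ) • (1 : F)
    rw [Algebra.smul_def, mul_one, map_natCast]
  rw [TT_apply, h1, map_smul, map_one, smul_eq_mul, mul_one]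
  exact inv_mul_cancel₀ (Nat.cast_ne_zero.2 Fintype.card_ne_zero)

lemma TT_mul (b v : F) (hv : v ∈ P) :
    TT P bF hFm hP χ (b * v) = TT P bF hFm hP χ b * χ ⟨v, hv⟩ := by
  have h1 : grpSum P bF hFm hP (b * v) = grpSum P bF hFm hP b * ⟨v, hv⟩ := by
    apply Subtype.ext
    change ∑ g, bF g (b * v) = (∑ g, bF g b) * v
    rw [sum_mul]
    exact sum_congr rfl fun g _ => by rw [map_mul, (hP v).1 hv g]
  rw [TT_apply, h1, map_mul, TT_apply, mul_assoc]

lemma TT_comm (b z w : F) (hz : z ∈ P) (hw : w ∈ P) :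
    TT P bF hFm hP χ (b * (z * w)) = TT P bF hFm hP χ (b * (w * z)) := by
  rw [TT_mul b _ (mul_mem hz hw), TT_mul b _ (mul_mem hw hz)]
  congr 1
  have e1 : (⟨z * w, mul_mem hz hw⟩ : P) = ⟨z, hz⟩ * ⟨w, hw⟩ := rfl
  have e2 : (⟨w * z, mul_mem hw hz⟩ : P) = ⟨w, hw⟩ * ⟨z, hz⟩ := rfl
  rw [e1, e2, map_mul, map_mul, mul_comm]

end functional

section sym

set_option linter.unusedSectionVars false

variable {F D G : Type*} [Ring F] [Algebra ℂ F] [Ring D] [Algebra ℂ D]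

variable {M : ℕ} (κ : Fin M → (D →ₐ[ℂ] F))
    (hc : Pairwise fun i j => ∀ x y, Commute (κ i x) (κ j y))

/-- the product over commuting copies -/
noncomputable def Phi : (Fin M → D) →* F :=
  MonoidHom.noncommPiCoprod (N := fun _ : Fin M => D) (fun i => ((κ i : D →ₐ[ℂ] F) : D →* F)) hc

lemma Phi_single (i : Fin M) (x : D) : Phi κ hc (Pi.mulSingle i x) = κ i x :=
  MonoidHom.noncommPiCoprod_mulSingle (N := fun _ : Fin M => D)
    (fun i => ((κ i : D →ₐ[ℂ] F) : D →* F)) i x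

lemma Phi_equiv (a : F →ₐ[ℂ] F) (d : D →ₐ[ℂ] D) (h : ∀ i x, κ i (d x) = a (κ i x))
    (f : Fin M → D) : a (Phi κ hc f) = Phi κ hc (fun i => d (f i)) := by
  have h1 : (a : F →* F).comp (Phi κ hc) = (Phi κ hc).comp ((d : D →* D).compLeft (Fin M)) := by
    apply MonoidHom.pi_ext
    intro i x
    change a (Phi κ hc (Pi.mulSingle i x)) = Phi κ hc (fun j => d ((Pi.mulSingle i x : Fin M → D) j))
    have h2 : (fun j => d ((Pi.mulSingle i x : Fin M → D) j)) = Pi.mulSingle i (d x) := by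
      ext j
      by_cases hj : j = i
      · subst hj
        simp
      · simp [Pi.mulSingle_eq_of_ne hj]
    rw [h2, Phi_single, Phi_single, h]
  exact DFunLike.congr_fun h1 f

/-- the symmetrised functional -/
noncomputable def th (T : F →ₗ[ℂ] ℂ) (f : Fin M → D) : ℂ :=
  ((M.factorial : ℂ)⁻¹) * ∑ σ : Equiv.Perm (Fin M), T (Phi κ hc (f ∘ σ))

lemma th_perm (T : F →ₗ[ℂ] ℂ) (f : Fin M → D) (τ : Equiv.Perm (Fin M)) :
    th κ hc T (f ∘ τ) = th κ hc T f := by
  unfold th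
  congr 1
  rw [← Equiv.sum_comp (Equiv.mulLeft τ) (fun σ : Equiv.Perm (Fin M) => T (Phi κ hc (f ∘ σ)))]
  rfl

lemma th_one (T : F →ₗ[ℂ] ℂ) (hT : T 1 = 1) : th κ hc T (1 : Fin M → D) = 1 := by
  unfold th
  have h1 : ∀ σ : Equiv.Perm (Fin M), T (Phi κ hc ((1 : Fin M → D) ∘ σ)) = 1 := by
    intro σ
    have : (1 : Fin M → D) ∘ σ = 1 := rfl
    rw [this, map_one, hT]
  rw [sum_congr rfl fun σ _ => h1 σ, sum_const, card_univ, Fintype.card_perm, Fintype.card_fin,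
    nsmul_eq_mul, mul_one]
  exact inv_mul_cancel₀ (Nat.cast_ne_zero.2 (Nat.factorial_ne_zero _))

/-- block function -/
def blk (M n m : ℕ) (a : D) : Fin M → D := fun i => if n ≤ (i : ℕ) ∧ (i : ℕ) < n + m then a else 1

lemma blk_mul (n m : ℕ) (a b : D) : blk M n m (a * b) = blk M n m a * blk M n m b := by
  ext i
  simp only [blk, Pi.mul_apply]
  split_ifs
  · rfl
  · rw [mul_one]

lemma blk_map (n m : ℕ) (a : D) (d : D →ₐ[ℂ] D) :
    (fun i => d (blk M n m a i)) = blk M n m (d a) := by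
  ext i
  simp only [blk]
  split_ifs
  · rfl
  · exact map_one d

lemma blk_one' (n m : ℕ) : blk M n m (1 : D) = 1 := by
  ext i
  simp [blk]

lemma blk_zero (n : ℕ) (a : D) : blk M n 0 a = 1 := by
  ext i
  simp only [blk, Pi.one_apply, ite_eq_right_iff]
  intro h
  omega

lemma blk_single (n : ℕ) (hn : n < M) (a : D) : blk M n 1 a = Pi.mulSingle ⟨n, hn⟩ a := by
  ext i
  by_cases hi : i = ⟨n, hn⟩
  · subst hi
    simp [blk]
  · rw [Pi.mulSingle_eq_of_ne hi]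
    simp only [blk, ite_eq_right_iff]
    intro h
    exact absurd (Fin.ext (by simp only; omega)) hi

lemma single_comp (i : Fin M) (a : D) (σ : Equiv.Perm (Fin M)) :
    (Pi.mulSingle i a : Fin M → D) ∘ σ = Pi.mulSingle (σ.symm i) a := by
  ext j
  by_cases hj : j = σ.symm i
  · subst hj
    simp
  · rw [Pi.mulSingle_eq_of_ne hj]
    have : σ j ≠ i := fun h => hj (by rw [← h, Equiv.symm_apply_apply])
    simp only [Function.comp_apply]
    rw [Pi.mulSingle_eq_of_ne this]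

lemma th_single (T : F →ₗ[ℂ] ℂ) (f : Fin M → D) (n : ℕ) (hn : n < M) (a : D) :
    th κ hc T (f * blk M n 1 a) = ((M.factorial : ℂ)⁻¹) * ∑ σ : Equiv.Perm (Fin M),
      T (Phi κ hc (f ∘ σ) * κ (σ.symm ⟨n, hn⟩) a) := by
  unfold th
  congr 1
  refine sum_congr rfl fun σ _ => ?_
  have : (f * blk M n 1 a) ∘ σ = (f ∘ σ) * Pi.mulSingle (σ.symm ⟨n, hn⟩) a := by
    rw [blk_single n hn, ← single_comp]
    rfl
  rw [this, map_mul, Phi_single]

lemma th_add (T : F →ₗ[ℂ] ℂ) (f : Fin M → D) (n : ℕ) (hn : n < M) (a b : D) :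
    th κ hc T (f * blk M n 1 (a + b)) = th κ hc T (f * blk M n 1 a)
      + th κ hc T (f * blk M n 1 b) := by
  rw [th_single κ hc T f n hn, th_single κ hc T f n hn, th_single κ hc T f n hn, ← mul_add,
    ← sum_add_distrib]
  congr 1
  refine sum_congr rfl fun σ _ => ?_
  rw [map_add, mul_add, map_add]

lemma th_smul (T : F →ₗ[ℂ] ℂ) (f : Fin M → D) (n : ℕ) (hn : n < M) (c : ℂ) (a : D) :
    th κ hc T (f * blk M n 1 (c • a)) = c * th κ hc T (f * blk M n 1 a) := by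
  rw [th_single κ hc T f n hn, th_single κ hc T f n hn, mul_left_comm]
  congr 1
  rw [Finset.mul_sum]
  refine Finset.sum_congr rfl fun σ _ => ?_
  rw [map_smul, mul_smul_comm, map_smul, smul_eq_mul]

end sym

section comm

variable {F D G : Type*} [Ring F] [Algebra ℂ F] [Ring D] [Algebra ℂ D] [Group G] [Fintype G]
  {P : Subalgebra ℂ F} {bF : G → (F →ₐ[ℂ] F)}
    {hFm : ∀ g h x, bF g (bF h x) = bF (g * h) x} {hP : ∀ x, x ∈ P ↔ ∀ g, bF g x = x}
    {χ : P →ₐ[ℂ] ℂ}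

variable {M : ℕ} (κ : Fin M → (D →ₐ[ℂ] F))
    (hc : Pairwise fun i j => ∀ x y, Commute (κ i x) (κ j y))

lemma th_comm (α : G → (D →ₐ[ℂ] D)) (hκ : ∀ g i x, κ i (α g x) = bF g (κ i x))
    (f : Fin M → D) (n m : ℕ) (y z w : D) :
    ∑ g : G × G, th κ hc (TT P bF hFm hP χ) (f * blk M n m (y * (α g.1 z * α g.2 w)))
      = ∑ g : G × G, th κ hc (TT P bF hFm hP χ) (f * blk M n m (y * (α g.2 w * α g.1 z))) := by
  unfold th
  rw [← mul_sum, ← mul_sum]
  congr 1
  rw [Finset.sum_comm]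
  conv_rhs => rw [Finset.sum_comm]
  refine sum_congr rfl fun σ _ => ?_
  set b : F := Phi κ hc ((f * blk M n m y) ∘ σ) with hb
  set Z : F := Phi κ hc (blk M n m z ∘ σ) with hZ
  set W : F := Phi κ hc (blk M n m w ∘ σ) with hW
  have hval : ∀ (g : G) (u : D), Phi κ hc (blk M n m (α g u) ∘ σ)
      = bF g (Phi κ hc (blk M n m u ∘ σ)) := by
    intro g u
    rw [Phi_equiv κ hc (bF g) (α g) (hκ g)]
    congr 1
    rw [← blk_map]
    rfl
  have hsplit : ∀ u v : D, Phi κ hc ((f * blk M n m (y * (u * v))) ∘ σ)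
      = b * (Phi κ hc (blk M n m u ∘ σ) * Phi κ hc (blk M n m v ∘ σ)) := by
    intro u v
    rw [hb, ← map_mul, ← map_mul]
    congr 1
    rw [blk_mul, blk_mul, ← mul_assoc]
    rfl
  have h1 : ∑ g : G × G, TT P bF hFm hP χ (Phi κ hc ((f * blk M n m (y * (α g.1 z * α g.2 w))) ∘ σ))
      = TT P bF hFm hP χ (b * ((∑ g, bF g Z) * (∑ g, bF g W))) := by
    rw [sum_mul_sum, mul_sum, map_sum, Fintype.sum_prod_type]
    refine sum_congr rfl fun g _ => ?_
    rw [mul_sum, map_sum]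
    refine sum_congr rfl fun h _ => ?_
    rw [hsplit, hval, hval]
  have h2 : ∑ g : G × G, TT P bF hFm hP χ (Phi κ hc ((f * blk M n m (y * (α g.2 w * α g.1 z))) ∘ σ))
      = TT P bF hFm hP χ (b * ((∑ g, bF g W) * (∑ g, bF g Z))) := by
    rw [sum_mul_sum, mul_sum, map_sum, Fintype.sum_prod_type, sum_comm]
    refine sum_congr rfl fun g _ => ?_
    rw [mul_sum, map_sum]
    refine sum_congr rfl fun h _ => ?_
    rw [hsplit, hval, hval]
  rw [h1, h2]
  exact TT_comm b _ _ (grpSum P bF hFm hP Z).2 (grpSum P bF hFm hP W).2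

end comm

end Vale.Agent.P095.Fin
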