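import Vale.Agent.P095.Fin2

/-!
# P095: the ideal and the finite group theorem in pure algebra
-/

open Finset Filter

namespace Vale.Agent.P095.Fin

section lists

variable {D : Type*} [Ring D]

/-- the function on `Fin M` with the given list of values -/
def lst (M : ℕ) (l : List D) : Fin M → D := fun i => l.getD i 1

lemma ofFn_lst (M : ℕ) (l : List D) (m : ℕ) (a : D) (h : l.length + m ≤ M) :
    List.ofFn (lst M l * blk M l.length m a)
      = l ++ (List.replicate m a ++ List.replicate (M - (l.length + m)) 1) := by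
  apply List.ext_getElem
  · simp only [List.length_ofFn, List.length_append, List.length_replicate]
    omega
  · intro i h1 h2
    rw [List.getElem_ofFn]
    simp only [Pi.mul_apply, lst, blk]
    by_cases c1 : i < l.length
    · rw [List.getElem_append_left c1, if_neg (by omega), mul_one, List.getD_eq_getElem _ _ c1]
    · rw [List.getElem_append_right (by omega), List.getD_eq_default _ _ (by omega), one_mul]
      by_cases c2 : i < l.length + m
      · rw [if_pos ⟨by omega, c2⟩, List.getElem_append_left (by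
          rw [List.length_replicate]; omega), List.getElem_replicate]
      · rw [if_neg (by omega), List.getElem_append_right (by
          rw [List.length_replicate]; omega), List.getElem_replicate]

end lists

section main

variable {F D : Type*} [Ring F] [Algebra ℂ F] [Ring D] [Algebra ℂ D]
  (κ : ∀ M : ℕ, Fin M → (D →ₐ[ℂ] F))
  (hc : ∀ M, Pairwise fun i j => ∀ x y, Commute (κ M i x) (κ M j y)) (T : F →ₗ[ℂ] ℂ)

/-- the functional on monomials -/
noncomputable def thM (M : ℕ) (s : Multiset D) : ℂ := th (κ M) (hc M) T (lst M s.toList)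

lemma thM_eq (M : ℕ) (l : List D) (m : ℕ) (a : D) (h : l.length + m ≤ M) :
    thM κ hc T M ((l : Multiset D) + m • {a})
      = th (κ M) (hc M) T (lst M l * blk M l.length m a) := by
  unfold thM
  set s : Multiset D := (l : Multiset D) + m • {a} with hs
  have hcard : s.toList.length = l.length + m := by
    rw [Multiset.length_toList, hs]
    simp
  have h1 : List.ofFn (lst M s.toList)
      = s.toList ++ (List.replicate 0 (1 : D) ++ List.replicate (M - (s.toList.length + 0)) 1) := by
    rw [← ofFn_lst M s.toList 0 1 (by omega), blk_zero, mul_one]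
  have h2 := ofFn_lst M l m a h
  have h3 : univ.val.map (lst M s.toList) = univ.val.map (lst M l * blk M l.length m a) := by
    rw [Fin.univ_val_map, Fin.univ_val_map, h1, h2]
    rw [← Multiset.coe_add, ← Multiset.coe_add, ← Multiset.coe_add, ← Multiset.coe_add,
      Multiset.coe_toList, hcard]
    simp only [List.replicate_zero, Multiset.coe_nil, zero_add, add_zero, Multiset.coe_replicate,
      hs, Multiset.nsmul_singleton, add_assoc]
  obtain ⟨τ, hτ⟩ := exists_perm_of_map_eq _ _ h3
  rw [← hτ, th_perm]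

/-- the functional on the polynomial ring -/
noncomputable def Th (M : ℕ) : MvPolynomial D ℂ →ₗ[ℂ] ℂ :=
  (MvPolynomial.basisMonomials D ℂ).constr ℂ fun s => thM κ hc T M (Finsupp.toMultiset s)

lemma Th_monomial (M : ℕ) (s : D →₀ ℕ) :
    Th κ hc T M (MvPolynomial.monomial s 1) = thM κ hc T M (Finsupp.toMultiset s) := by
  have := (MvPolynomial.basisMonomials D ℂ).constr_basis ℂ
    (fun s => thM κ hc T M (Finsupp.toMultiset s)) s
  rwa [MvPolynomial.coe_basisMonomials] at this

lemma Th_pow (M : ℕ) (s : D →₀ ℕ) (m : ℕ) (a : D)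
    (h : (Finsupp.toMultiset s).toList.length + m ≤ M) :
    Th κ hc T M (MvPolynomial.monomial s 1 * MvPolynomial.X a ^ m)
      = th (κ M) (hc M) T (lst M (Finsupp.toMultiset s).toList
        * blk M (Finsupp.toMultiset s).toList.length m a) := by
  rw [MvPolynomial.X_pow_eq_monomial, MvPolynomial.monomial_mul, mul_one, Th_monomial, map_add,
    Finsupp.toMultiset_single, ← thM_eq κ hc T M _ m a h, Multiset.coe_toList]

lemma Th_X (M : ℕ) (s : D →₀ ℕ) (a : D)
    (h : (Finsupp.toMultiset s).toList.length + 1 ≤ M) :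
    Th κ hc T M (MvPolynomial.monomial s 1 * MvPolynomial.X a)
      = th (κ M) (hc M) T (lst M (Finsupp.toMultiset s).toList
        * blk M (Finsupp.toMultiset s).toList.length 1 a) := by
  rw [← Th_pow κ hc T M s 1 a h, pow_one]

/-- the ideal of asymptotically null polynomials -/
def idealJ : Ideal (MvPolynomial D ℂ) where
  carrier := {j | ∀ p, ∀ᶠ M in atTop, Th κ hc T M (p * j) = 0}
  add_mem' := by
    intro a b ha hb p
    filter_upwards [ha p, hb p] with M h1 h2
    rw [mul_add, map_add, h1, h2, add_zero]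
  zero_mem' := by
    intro p
    simp
  smul_mem' := by
    intro c x hx p
    have := hx (p * c)
    simpa only [smul_eq_mul, mul_assoc] using this

lemma mem_idealJ {j : MvPolynomial D ℂ} :
    j ∈ idealJ κ hc T ↔ ∀ p, ∀ᶠ M in atTop, Th κ hc T M (p * j) = 0 := Iff.rfl

lemma mem_of_monomial {j : MvPolynomial D ℂ}
    (h : ∀ s : D →₀ ℕ, ∀ᶠ M in atTop, Th κ hc T M (MvPolynomial.monomial s 1 * j) = 0) :
    j ∈ idealJ κ hc T := by
  rw [mem_idealJ]
  intro p
  induction p using MvPolynomial.induction_on' with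
  | monomial s c =>
    filter_upwards [h s] with M hM
    have : MvPolynomial.monomial s c = c • MvPolynomial.monomial s (1 : ℂ) := by
      rw [MvPolynomial.smul_monomial, smul_eq_mul, mul_one]
    rw [this, smul_mul_assoc, map_smul, hM, smul_zero]
  | add p q hp hq =>
    filter_upwards [hp, hq] with M h1 h2
    rw [add_mul, map_add, h1, h2, add_zero]

lemma one_notMem (hT : T 1 = 1) : (1 : MvPolynomial D ℂ) ∉ idealJ κ hc T := by
  intro h
  have h1 := (mem_idealJ κ hc T).1 h 1
  obtain ⟨M, hM⟩ := h1.exists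
  have h2 : (1 : MvPolynomial D ℂ) * 1
      = MvPolynomial.monomial (0 : D →₀ ℕ) 1 * MvPolynomial.X (1 : D) ^ 0 := by
    rw [pow_zero, mul_one, mul_one]
    rfl
  rw [h2, Th_pow κ hc T M 0 0 1 (by simp), blk_zero, mul_one] at hM
  have h3 : lst M (Finsupp.toMultiset (0 : D →₀ ℕ)).toList = 1 := by
    ext i
    simp [lst]
  rw [h3, th_one _ _ _ hT] at hM
  exact one_ne_zero hM

lemma add_mem_J (x y : D) : (MvPolynomial.X (x + y) - MvPolynomial.X x - MvPolynomial.X y :
    MvPolynomial D ℂ) ∈ idealJ κ hc T := by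
  apply mem_of_monomial
  intro s
  filter_upwards [eventually_ge_atTop ((Finsupp.toMultiset s).toList.length + 1)] with M hM
  rw [mul_sub, mul_sub, map_sub, map_sub, Th_X κ hc T M s _ hM, Th_X κ hc T M s _ hM,
    Th_X κ hc T M s _ hM, th_add _ _ _ _ _ (by omega)]
  ring

lemma smul_mem_J (c : ℂ) (x : D) : (MvPolynomial.X (c • x) - c • MvPolynomial.X x :
    MvPolynomial D ℂ) ∈ idealJ κ hc T := by
  apply mem_of_monomial
  intro s
  filter_upwards [eventually_ge_atTop ((Finsupp.toMultiset s).toList.length + 1)] with M hM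
  rw [mul_sub, map_sub, Th_X κ hc T M s _ hM, mul_smul_comm, map_smul, Th_X κ hc T M s _ hM,
    th_smul _ _ _ _ _ (by omega), smul_eq_mul, sub_self]

lemma one_mem_J : (MvPolynomial.X (1 : D) - 1 : MvPolynomial D ℂ) ∈ idealJ κ hc T := by
  apply mem_of_monomial
  intro s
  filter_upwards [eventually_ge_atTop ((Finsupp.toMultiset s).toList.length + 1)] with M hM
  have h0 := Th_pow κ hc T M s 0 1 (by omega)
  rw [pow_zero] at h0
  rw [mul_sub, map_sub, Th_X κ hc T M s _ hM, h0, blk_one', blk_zero, sub_self]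

end main

section final

universe uF uD uG

variable {F : Type uF} {D : Type uD} {G : Type uG} [Ring F] [Algebra ℂ F] [Ring D] [Algebra ℂ D] [Group G] [Fintype G]
  (P : Subalgebra ℂ F) (bF : G → (F →ₐ[ℂ] F))
    (hFm : ∀ g h x, bF g (bF h x) = bF (g * h) x) (hP : ∀ x, x ∈ P ↔ ∀ g, bF g x = x)
    (χ : P →ₐ[ℂ] ℂ) (κ : ∀ M : ℕ, Fin M → (D →ₐ[ℂ] F))
  (hc : ∀ M, Pairwise fun i j => ∀ x y, Commute (κ M i x) (κ M j y))

lemma pow_mem_J (α : G → (D →ₐ[ℂ] D)) (hκ : ∀ M g i x, κ M i (α g x) = bF g (κ M i x))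
    (m : ℕ) (y z w : D) :
    (∑ g : G × G, (MvPolynomial.X (y * (α g.1 z * α g.2 w)) ^ m : MvPolynomial D ℂ)
      - ∑ g : G × G, MvPolynomial.X (y * (α g.2 w * α g.1 z)) ^ m)
      ∈ idealJ κ hc (TT P bF hFm hP χ) := by
  apply mem_of_monomial
  intro s
  filter_upwards [eventually_ge_atTop ((Finsupp.toMultiset s).toList.length + m)] with M hM
  rw [mul_sub, map_sub, mul_sum, mul_sum, map_sum, map_sum, sub_eq_zero]
  rw [sum_congr rfl fun g _ => Th_pow κ hc (TT P bF hFm hP χ) M s m _ hM]
  rw [th_comm (κ M) (hc M) α (hκ M)]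
  exact (sum_congr rfl fun g _ => Th_pow κ hc (TT P bF hFm hP χ) M s m _ hM).symm

include P hFm hP χ hc in
theorem fin_main (α : G → (D →ₐ[ℂ] D)) (hα : ∀ g h x, α g (α h x) = α (g * h) x)
    (hα1 : ∀ x, α 1 x = x) (hκ : ∀ M g i x, κ M i (α g x) = bF g (κ M i x)) :
    ∃ (L : Type uD) (_ : Field L) (_ : Algebra ℂ L) (ψ : D →ₗ[ℂ] L), ψ 1 = 1 ∧
      ∀ y z w, ψ (y * (z * w)) = ψ (y * (w * z)) := by
  set T := TT P bF hFm hP χ with hTdef
  have hT : T 1 = 1 := TT_one
  have hJ : idealJ κ hc T ≠ ⊤ := by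
    rw [Ne, Ideal.eq_top_iff_one]
    exact one_notMem κ hc T hT
  obtain ⟨𝔪, hmax, hle⟩ := Ideal.exists_le_maximal _ hJ
  let _ : Field (MvPolynomial D ℂ ⧸ 𝔪) := Ideal.Quotient.field 𝔪
  have hchar : CharZero (MvPolynomial D ℂ ⧸ 𝔪) :=
    charZero_of_injective_algebraMap (algebraMap ℂ (MvPolynomial D ℂ ⧸ 𝔪)).injective
  let q : MvPolynomial D ℂ →ₐ[ℂ] (MvPolynomial D ℂ ⧸ 𝔪) := Ideal.Quotient.mkₐ ℂ 𝔪
  have hq : ∀ j, j ∈ idealJ κ hc T → q j = 0 := fun j hj =>
    Ideal.Quotient.eq_zero_iff_mem.2 (hle hj)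
  let ψ : D →ₗ[ℂ] (MvPolynomial D ℂ ⧸ 𝔪) :=
    { toFun := fun x => q (MvPolynomial.X x)
      map_add' := by
        intro x y
        have := hq _ (add_mem_J κ hc T x y)
        rw [map_sub, map_sub, sub_sub, sub_eq_zero] at this
        exact this
      map_smul' := by
        intro c x
        have := hq _ (smul_mem_J κ hc T c x)
        rw [map_sub, map_smul, sub_eq_zero] at this
        exact this }
  refine ⟨MvPolynomial D ℂ ⧸ 𝔪, inferInstance, inferInstance, ψ, ?_, ?_⟩
  · have := hq _ (one_mem_J κ hc T)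
    rw [map_sub, map_one, sub_eq_zero] at this
    exact this
  · refine psi_zero α hα hα1 ψ fun y z w => ?_
    have hpow : ∀ m : ℕ, 1 ≤ m → ∑ g : G × G, ψ (y * (α g.1 z * α g.2 w)) ^ m
        = ∑ g : G × G, ψ (y * (α g.2 w * α g.1 z)) ^ m := by
      intro m _
      have h1 := hq _ (pow_mem_J P bF hFm hP χ κ hc α hκ m y z w)
      rw [map_sub, sub_eq_zero, map_sum, map_sum] at h1
      simp only [map_pow] at h1
      exact h1
    obtain ⟨g, hg⟩ := mem_of_powerSums _ _ hpow (1, 1)
    refine ⟨g, ?_⟩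
    rw [hg]
    simp only [hα1]

include P hFm hP χ hc in
theorem fin_alg' (α : G → (D →ₐ[ℂ] D)) (hα : ∀ g h x, α g (α h x) = α (g * h) x)
    (hα1 : ∀ x, α 1 x = x) (hκ : ∀ M g i x, κ M i (α g x) = bF g (κ M i x))
    (h1 : (1 : D) ∈ Submodule.span ℂ {x : D | ∃ a b c d : D, x = c * (a * b - b * a) * d}) :
    False := by
  obtain ⟨L, _, _, ψ, hψ1, hψ⟩ := fin_main P bF hFm hP χ κ hc α hα hα1 hκ
  have h2 : ∀ x ∈ Submodule.span ℂ {x : D | ∃ a b c d : D, x = c * (a * b - b * a) * d},
      ψ x = 0 := by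
    intro x hx
    have h3 : Submodule.span ℂ {x : D | ∃ a b c d : D, x = c * (a * b - b * a) * d}
        ≤ LinearMap.ker ψ := by
      rw [Submodule.span_le]
      rintro _ ⟨a, b, c, d, rfl⟩
      rw [SetLike.mem_coe, LinearMap.mem_ker]
      have e1 : c * (a * b - b * a) * d = c * (a * (b * d)) - c * (b * (a * d)) := by
        noncomm_ring
      rw [e1, map_sub, sub_eq_zero, hψ c a (b * d)]
      have e2 : c * (b * d * a) = (c * b) * (d * a) := by noncomm_ring
      have e3 : c * (b * (a * d)) = (c * b) * (a * d) := by noncomm_ring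
      rw [e2, e3]
      exact hψ (c * b) d a
    exact h3 hx
  have h4 := h2 1 h1
  rw [hψ1] at h4
  exact one_ne_zero h4

end final

end Vale.Agent.P095.Fin
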