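import Mathlib

/-!
# P095, the field part of the proof of helper3
-/

namespace Vale.Agent.P095

namespace FinA

open Polynomial

theorem mem_of_pow {L : Type*} [Field L] [CharZero L] {ι : Type*} [Fintype ι] (a b : ι → L)
    (h : ∀ m, 1 ≤ m → ∑ i, a i ^ m = ∑ i, b i ^ m) (i₀ : ι) : ∃ j, a i₀ = b j := by
  classical
  by_contra hne
  push Not at hne
  have hp : ∀ p : Polynomial L, ∑ i, p.eval (a i) = ∑ i, p.eval (b i) := by
    intro p
    induction p using Polynomial.induction_on' with
    | add p q hp hq => simp only [eval_add, Finset.sum_add_distrib, hp, hq]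
    | monomial n c =>
      simp only [eval_monomial, ← Finset.mul_sum]
      rcases n with _ | n
      · simp
      · rw [h _ (by omega)]
  let S : Finset L := (Finset.univ.image a ∪ Finset.univ.image b).erase (a i₀)
  let p : Polynomial L := ∏ c ∈ S, (X - C c)
  have h1 : ∑ i, p.eval (b i) = 0 := Finset.sum_eq_zero fun j _ => by
    have hj : b j ∈ S := by
      simp only [S, Finset.mem_erase, Finset.mem_union, Finset.mem_image, Finset.mem_univ,
        true_and]
      exact ⟨fun hh => hne j hh.symm, Or.inr ⟨j, rfl⟩⟩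
    rw [eval_prod]
    exact Finset.prod_eq_zero hj (by simp)
  have h0 : p.eval (a i₀) ≠ 0 := by
    rw [eval_prod, Finset.prod_ne_zero_iff]
    intro c hc
    simp only [S, Finset.mem_erase] at hc
    simp only [eval_sub, eval_X, eval_C]
    exact sub_ne_zero.2 (fun hh => hc.1 hh.symm)
  have h2 : ∀ i, p.eval (a i) = if a i = a i₀ then p.eval (a i₀) else 0 := by
    intro i
    split_ifs with hi
    · rw [hi]
    · have hj : a i ∈ S := by
        simp only [S, Finset.mem_erase, Finset.mem_union, Finset.mem_image, Finset.mem_univ,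
          true_and]
        exact ⟨hi, Or.inl ⟨i, rfl⟩⟩
      rw [eval_prod]
      exact Finset.prod_eq_zero hj (by simp)
  have h3 := hp p
  rw [h1, Finset.sum_congr rfl (fun i _ => h2 i), ← Finset.sum_filter, Finset.sum_const,
    nsmul_eq_mul] at h3
  rcases mul_eq_zero.1 h3 with h4 | h4
  · rw [Nat.cast_eq_zero, Finset.card_eq_zero, Finset.filter_eq_empty_iff] at h4
    exact h4 (Finset.mem_univ i₀) rfl
  · exact h0 h4

/-- the covering lemma in the form used -/
theorem cover {V ι : Type*} [AddCommGroup V] [Module ℂ V] [Finite ι] (p : ι → V → Prop)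
    (hp : ∀ i, ∃ W : Submodule ℂ V, ∀ x, p i x ↔ x ∈ W) (h : ∀ x, ∃ i, p i x) :
    ∃ i, ∀ x, p i x := by
  choose W hW using hp
  have hc : ⋃ i, ((W i : Submodule ℂ V) : Set V) = Set.univ := by
    ext x
    simp only [Set.mem_iUnion, SetLike.mem_coe, Set.mem_univ, iff_true]
    obtain ⟨i, hi⟩ := h x
    exact ⟨i, (hW i x).1 hi⟩
  obtain ⟨i, hi⟩ := Subspace.exists_eq_top_of_iUnion_eq_univ hc
  exact ⟨i, fun x => (hW i x).2 (by rw [hi]; trivial)⟩

end FinA

open FinA in
/-- FIELDPART -/
theorem fieldPart {L D G : Type*} [Field L] [CharZero L] [Algebra ℂ L] [Ring D] [Algebra ℂ D]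
    [Group G] [Fintype G] (β : G →* (D ≃ₐ[ℂ] D)) (ψ : D →ₗ[ℂ] L)
    (h : ∀ m, 1 ≤ m → ∀ y z w, ∑ g, ∑ k, ψ (y * β g z * β k w) ^ m =
      ∑ g, ∑ k, ψ (y * β k w * β g z) ^ m) :
    ∀ y z w, ψ (y * z * w) = ψ (y * w * z) := by
  classical
  have h1 : ∀ z w y, ∃ i : G × G, ψ (y * z * w) = ψ (y * β i.2 w * β i.1 z) := by
    intro z w y
    obtain ⟨j, hj⟩ := mem_of_pow (fun i : G × G => ψ (y * β i.1 z * β i.2 w))
      (fun i : G × G => ψ (y * β i.2 w * β i.1 z)) (fun m hm => by
        simp only [Fintype.sum_prod_type]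
        exact h m hm y z w) (1, 1)
    refine ⟨j, ?_⟩
    simpa using hj
  have h2 : ∀ z w, ∃ i : G × G, ∀ y, ψ (y * z * w) = ψ (y * β i.2 w * β i.1 z) := by
    intro z w
    refine cover (fun (i : G × G) y => ψ (y * z * w) = ψ (y * β i.2 w * β i.1 z)) (fun i => ?_)
      (h1 z w)
    refine ⟨{ carrier := {y | ψ (y * z * w) = ψ (y * β i.2 w * β i.1 z)}
              add_mem' := ?_, zero_mem' := ?_, smul_mem' := ?_ }, fun x => Iff.rfl⟩
    · intro a b ha hb
      simp only [Set.mem_ofPred_eq, add_mul, map_add] at ha hb ⊢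
      rw [ha, hb]
    · simp
    · intro c a ha
      simp only [Set.mem_ofPred_eq, smul_mul_assoc, map_smul] at ha ⊢
      rw [ha]
  have h3 : ∀ z, ∃ i : G × G, ∀ w, ∀ y, ψ (y * z * w) = ψ (y * β i.2 w * β i.1 z) := by
    intro z
    refine cover (fun (i : G × G) w => ∀ y, ψ (y * z * w) = ψ (y * β i.2 w * β i.1 z))
      (fun i => ?_) (h2 z)
    refine ⟨{ carrier := {w | ∀ y, ψ (y * z * w) = ψ (y * β i.2 w * β i.1 z)}
              add_mem' := ?_, zero_mem' := ?_, smul_mem' := ?_ }, fun x => Iff.rfl⟩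
    · intro a b ha hb y
      simp only [Set.mem_ofPred_eq] at ha hb
      simp only [mul_add, add_mul, map_add, ha y, hb y]
    · simp
    · intro c a ha y
      simp only [Set.mem_ofPred_eq] at ha
      simp only [map_smul, mul_smul_comm, smul_mul_assoc, ha y]
  have h4 : ∃ i : G × G, ∀ z, ∀ w, ∀ y, ψ (y * z * w) = ψ (y * β i.2 w * β i.1 z) := by
    refine cover (fun (i : G × G) z => ∀ w, ∀ y, ψ (y * z * w) = ψ (y * β i.2 w * β i.1 z))
      (fun i => ?_) h3
    refine ⟨{ carrier := {z | ∀ w, ∀ y, ψ (y * z * w) = ψ (y * β i.2 w * β i.1 z)}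
              add_mem' := ?_, zero_mem' := ?_, smul_mem' := ?_ }, fun x => Iff.rfl⟩
    · intro a b ha hb w y
      simp only [Set.mem_ofPred_eq] at ha hb
      simp only [mul_add, add_mul, map_add, ha w y, hb w y]
    · simp
    · intro c a ha w y
      simp only [Set.mem_ofPred_eq] at ha
      simp only [map_smul, mul_smul_comm, smul_mul_assoc, ha w y]
  obtain ⟨⟨g, k⟩, hgk⟩ := h4
  simp only at hgk
  have hz : ∀ y z, ψ (y * z) = ψ (y * β g z) := by
    intro y z
    have := hgk z 1 y
    simpa using this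
  have hw : ∀ y w, ψ (y * w) = ψ (y * β k w) := by
    intro y w
    have := hgk 1 w y
    simpa using this
  intro y z w
  have e1 : ψ (y * z * w) = ψ (y * β k w * z) := by
    rw [hgk z w y, ← hz]
  have e2 : β k (w * (β k).symm z) = β k w * z := by
    rw [map_mul, AlgEquiv.apply_symm_apply]
  have e3 : ψ (y * (β k w * z)) = ψ (y * (w * (β k).symm z)) := by
    rw [hw y (w * (β k).symm z), e2]
  have e4 : ψ (y * w * (β k).symm z) = ψ (y * w * z) := by
    rw [hw (y * w) ((β k).symm z), AlgEquiv.apply_symm_apply]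
  rw [e1, mul_assoc, e3, ← mul_assoc, e4]

end Vale.Agent.P095
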