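import Vale.Agent.P095.EqAlg

/-!
# P095: fixed point algebras are C*-algebras with (equivariant) commuting copies
-/

namespace Vale.Agent.P095

open Vale.Agent.P101

universe u v

theorem fixAlg_closed (F : Type u) [CStarAlgebra F] {ι : Type v} (β : ι → (F ≃⋆ₐ[ℂ] F)) :
    IsClosed (fixAlg F β : Set F) := by
  have h : (fixAlg F β : Set F) = ⋂ i, {x | β i x = x} := by
    ext x
    simp only [Set.mem_iInter, Set.mem_setOf_eq]
    exact mem_fixAlg
  rw [h]
  refine isClosed_iInter fun i => ?_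
  exact isClosed_eq (StarAlgEquiv.isometry (β i)).continuous continuous_id

/-- equivariant copies in a subalgebra of fixed points -/
theorem eqSelfComm_sub {F : Type u} [CStarAlgebra F] {ι : Type v} (β : ι → (F ≃⋆ₐ[ℂ] F))
    (h : EqSelfComm F β) (P : StarSubalgebra ℂ F) [hcl : IsClosed (P : Set F)] (J : Set ι)
    (hP : ∀ x, x ∈ P ↔ ∀ j ∈ J, β j x = x) {ι' : Type v} (βP : ι' → (P ≃⋆ₐ[ℂ] P))
    (hsurj : ∀ i : ι, ∃ i' : ι', ∀ x : P, ((βP i' x : P) : F) = β i x)
    (hβP : ∀ i' : ι', ∃ i : ι, ∀ x : P, ((βP i' x : P) : F) = β i x) : EqSelfComm P βP := by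
  intro S hS hinv
  set S' : Set F := (fun x : P => (x : F)) '' S with hS'
  have hS'c : S'.Countable := hS.image _
  have hS'inv : ∀ i, ∀ x ∈ S', β i x ∈ S' := by
    rintro i _ ⟨x, hx, rfl⟩
    obtain ⟨i', hi'⟩ := hsurj i
    exact ⟨βP i' x, hinv i' x hx, hi' x⟩
  obtain ⟨κ, hκ1, hκ2⟩ := h S' hS'c hS'inv
  have hle : StarAlgebra.adjoin ℂ S ≤ (StarAlgebra.adjoin ℂ S').comap P.subtype := by
    apply StarAlgebra.adjoin_le
    intro x hx
    exact StarAlgebra.subset_adjoin ℂ _ ⟨x, hx, rfl⟩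
  let ι0 : StarAlgebra.adjoin ℂ S →⋆ₐ[ℂ] StarAlgebra.adjoin ℂ S' :=
    { toFun := fun x => ⟨((x : P) : F), hle x.2⟩
      map_one' := rfl
      map_mul' := fun _ _ => rfl
      map_zero' := rfl
      map_add' := fun _ _ => rfl
      commutes' := fun _ => rfl
      map_star' := fun _ => rfl }
  have hmem : ∀ x : StarAlgebra.adjoin ℂ S, κ (ι0 x) ∈ P := by
    intro x
    rw [hP]
    intro j hj
    have h1 : β j ((x : P) : F) = ((x : P) : F) := (hP _).1 (x : P).2 j hj
    exact (hκ2 j (ι0 x) (ι0 x) h1.symm).symm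
  let κP : StarAlgebra.adjoin ℂ S →⋆ₐ[ℂ] P :=
    { toFun := fun x => ⟨κ (ι0 x), hmem x⟩
      map_one' := Subtype.ext (by change κ (ι0 1) = 1; rw [map_one, map_one])
      map_mul' := fun x y => Subtype.ext (by
        change κ (ι0 (x * y)) = κ (ι0 x) * κ (ι0 y); rw [map_mul, map_mul])
      map_zero' := Subtype.ext (by change κ (ι0 0) = 0; rw [map_zero, map_zero])
      map_add' := fun x y => Subtype.ext (by
        change κ (ι0 (x + y)) = κ (ι0 x) + κ (ι0 y); rw [map_add, map_add])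
      commutes' := fun c => Subtype.ext (by
        change κ (ι0 (algebraMap ℂ _ c)) = algebraMap ℂ F c
        rw [AlgHomClass.commutes, AlgHomClass.commutes])
      map_star' := fun x => Subtype.ext (by
        change κ (ι0 (star x)) = star (κ (ι0 x)); rw [map_star, map_star]) }
  refine ⟨κP, fun x y => Subtype.ext (hκ1 (ι0 x) (ι0 y)), fun i' x y hxy => ?_⟩
  obtain ⟨i, hi⟩ := hβP i'
  apply Subtype.ext
  rw [hi]
  refine hκ2 i (ι0 x) (ι0 y) ?_
  change ((y : P) : F) = β i ((x : P) : F)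
  rw [hxy, hi]

theorem fixsc : S_FIXSC.{u, v} := by
  intro F _ ι β h
  have hcl : IsClosed (fixAlg F β : Set F) := fixAlg_closed F β
  refine ⟨fixAlg F β, inferInstance, ⟨StarAlgEquiv.refl ℂ _⟩, ?_⟩
  intro S hS
  by_cases hι : Nonempty ι
  · obtain ⟨i0⟩ := hι
    have key := eqSelfComm_sub β h (fixAlg F β) Set.univ
      (fun x => ⟨fun hx j _ => hx j, fun hx j => hx j (Set.mem_univ j)⟩)
      (fun _ : ι => StarAlgEquiv.refl ℂ (fixAlg F β))
      (fun i => ⟨i, fun x => (x.2 i).symm⟩) (fun i => ⟨i, fun x => (x.2 i).symm⟩)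
    obtain ⟨κ, hκ, _⟩ := key S hS (fun i x hx => hx)
    exact ⟨κ, hκ⟩
  · -- no automorphisms at all: the fixed point algebra is everything
    have hall : ∀ x : F, x ∈ fixAlg F β := fun x i => absurd ⟨i⟩ hι
    set S' : Set F := (fun x : fixAlg F β => (x : F)) '' S with hS'
    obtain ⟨κ, hκ1, _⟩ := h S' (hS.image _) (fun i => absurd ⟨i⟩ hι)
    have hle : StarAlgebra.adjoin ℂ S ≤ (StarAlgebra.adjoin ℂ S').comap (fixAlg F β).subtype := by
      apply StarAlgebra.adjoin_le
      intro x hx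
      exact StarAlgebra.subset_adjoin ℂ _ ⟨x, hx, rfl⟩
    let ι0 : StarAlgebra.adjoin ℂ S →⋆ₐ[ℂ] StarAlgebra.adjoin ℂ S' :=
      { toFun := fun x => ⟨((x : fixAlg F β) : F), hle x.2⟩
        map_one' := rfl
        map_mul' := fun _ _ => rfl
        map_zero' := rfl
        map_add' := fun _ _ => rfl
        commutes' := fun _ => rfl
        map_star' := fun _ => rfl }
    let κP : StarAlgebra.adjoin ℂ S →⋆ₐ[ℂ] fixAlg F β :=
      { toFun := fun x => ⟨κ (ι0 x), hall _⟩
        map_one' := Subtype.ext (by change κ (ι0 1) = 1; rw [map_one, map_one])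
        map_mul' := fun x y => Subtype.ext (by
          change κ (ι0 (x * y)) = κ (ι0 x) * κ (ι0 y); rw [map_mul, map_mul])
        map_zero' := Subtype.ext (by change κ (ι0 0) = 0; rw [map_zero, map_zero])
        map_add' := fun x y => Subtype.ext (by
          change κ (ι0 (x + y)) = κ (ι0 x) + κ (ι0 y); rw [map_add, map_add])
        commutes' := fun c => Subtype.ext (by
          change κ (ι0 (algebraMap ℂ _ c)) = algebraMap ℂ F c
          rw [AlgHomClass.commutes, AlgHomClass.commutes])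
        map_star' := fun x => Subtype.ext (by
          change κ (ι0 (star x)) = star (κ (ι0 x)); rw [map_star, map_star]) }
    exact ⟨κP, fun x y => Subtype.ext (hκ1 (ι0 x) (ι0 y))⟩

end Vale.Agent.P095
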