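import Vale.Agent.P095.Finite
import Vale.Agent.P095.FixSC

/-!
# P095: module FINIDX (subgroups of finite index)
-/

namespace Vale.Agent.P095

open Vale.Agent.P101

universe u v

namespace FINIDX

variable {F : Type u} [CStarAlgebra F] {G : Type v} [Group G] (β : G →* (F ≃⋆ₐ[ℂ] F))
  (N : Subgroup G)

/-- the fixed point algebra of a subgroup -/
abbrev PP : StarSubalgebra ℂ F := fixAlg F (fun g : N => β g)

lemma mem_PP {x : F} : x ∈ PP β N ↔ ∀ n ∈ N, β n x = x :=
  ⟨fun h n hn => h ⟨n, hn⟩, fun h n => h n n.2⟩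

lemma map_PP [N.Normal] (g : G) {x : F} (hx : x ∈ PP β N) : β g x ∈ PP β N := by
  rw [mem_PP] at hx ⊢
  intro n hn
  have h1 := hx (g⁻¹ * n * g) (by
    have := Subgroup.Normal.conj_mem ‹N.Normal› n hn g⁻¹
    rwa [inv_inv] at this)
  calc β n (β g x) = β (n * g) x := by rw [map_mul, StarAlgEquiv.mul_apply]
    _ = β (g * (g⁻¹ * n * g)) x := by congr 2; group
    _ = β g (β (g⁻¹ * n * g) x) := by rw [map_mul, StarAlgEquiv.mul_apply]
    _ = β g x := by rw [h1]

/-- the action on the fixed point algebra of a normal subgroup -/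
def act0 [N.Normal] : G →* (PP β N ≃⋆ₐ[ℂ] PP β N) where
  toFun g :=
    { toFun := fun x => ⟨β g x, map_PP β N g x.2⟩
      invFun := fun x => ⟨β g⁻¹ x, map_PP β N g⁻¹ x.2⟩
      left_inv := fun x => Subtype.ext (by
        change β g⁻¹ (β g x) = x
        rw [← StarAlgEquiv.mul_apply, ← map_mul, inv_mul_cancel, map_one, StarAlgEquiv.one_apply])
      right_inv := fun x => Subtype.ext (by
        change β g (β g⁻¹ x) = x
        rw [← StarAlgEquiv.mul_apply, ← map_mul, mul_inv_cancel, map_one, StarAlgEquiv.one_apply])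
      map_mul' := fun x y => Subtype.ext (map_mul (β g) _ _)
      map_add' := fun x y => Subtype.ext (map_add (β g) _ _)
      map_star' := fun x => Subtype.ext (map_star (β g) _)
      map_smul' := fun c x => Subtype.ext (map_smul (β g) c _) }
  map_one' := by
    ext x
    change β 1 x = x
    rw [map_one, StarAlgEquiv.one_apply]
  map_mul' g h := by
    ext x
    change β (g * h) x = β g (β h x)
    rw [map_mul, StarAlgEquiv.mul_apply]

lemma act0_coe [N.Normal] (g : G) (x : PP β N) : ((act0 β N g x : PP β N) : F) = β g x := rfl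

/-- the action of the quotient group -/
def actQ [N.Normal] : G ⧸ N →* (PP β N ≃⋆ₐ[ℂ] PP β N) :=
  QuotientGroup.lift N (act0 β N) fun n hn => by
    ext x
    rw [act0_coe, StarAlgEquiv.one_apply]
    exact (mem_PP β N).1 x.2 n hn

lemma actQ_coe [N.Normal] (g : G) (x : PP β N) :
    ((actQ β N (QuotientGroup.mk g) x : PP β N) : F) = β g x := rfl

end FINIDX

open FINIDX in
theorem finidx (hF : S_FINITE.{u, v}) (F : Type u) [CStarAlgebra F] (G : Type v) [Group G]
    (β : G →* (F ≃⋆ₐ[ℂ] F)) (H : Subgroup G) [H.FiniteIndex]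
    (hE : EqSelfComm F (fun g => β g)) (h : IsEmpty (fixAlg F (fun g : H => β g) →⋆ₐ[ℂ] ℂ)) :
    IsEmpty (fixAlg F (fun g => β g) →⋆ₐ[ℂ] ℂ) := by
  let N : Subgroup G := H.normalCore
  have hN : N ≤ H := Subgroup.normalCore_le H
  have hcl : IsClosed (PP β N : Set F) := fixAlg_closed F _
  have hP : EqSelfComm (PP β N) (fun q => actQ β N q) := by
    refine eqSelfComm_sub (fun g => β g) hE (PP β N) (N : Set G)
      (fun x => mem_PP β N) (fun q => actQ β N q) ?_ ?_
    · intro g
      exact ⟨QuotientGroup.mk g, fun x => rfl⟩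
    · intro q
      obtain ⟨g, rfl⟩ := QuotientGroup.mk_surjective q
      exact ⟨g, fun x => rfl⟩
  have hPc : IsEmpty (PP β N →⋆ₐ[ℂ] ℂ) := by
    refine ⟨fun χ => h.false (χ.comp (StarSubalgebra.inclusion ?_))⟩
    intro x hx
    rw [mem_PP]
    exact fun n hn => hx ⟨n, hN hn⟩
  have h1 := hF (G ⧸ N) (PP β N) (actQ β N) hP hPc
  refine ⟨fun χ => h1.false (χ.comp ?_)⟩
  exact
    { toFun := fun x => ⟨((x : PP β N) : F), fun g => by
        have h2 := x.2 (QuotientGroup.mk g)
        exact congrArg (fun z : PP β N => (z : F)) h2⟩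
      map_one' := rfl
      map_mul' := fun _ _ => rfl
      map_zero' := rfl
      map_add' := fun _ _ => rfl
      commutes' := fun _ => rfl
      map_star' := fun _ => rfl }

end Vale.Agent.P095
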