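import Vale.Agent.P095.LocFin2
import Vale.Agent.P095.Finite

/-!
# P095: Theorem B (locally finite groups), modulo the algebraic theorem for finite groups
-/

open Filter Topology BoundedContinuousFunction

namespace Vale.Agent.P095

open Vale.Agent.P101 Vale.Agent.P101.UltA

universe u v

theorem finite_fix (hfin : S_FINITE.{u, v}) (ω : Ultrafilter ℕ)
    (hω : (ω : Filter ℕ) ≤ Filter.cofinite) {A : Type u}
    [CStarAlgebra A] [TopologicalSpace.SeparableSpace A] {G : Type v} [Group G] [Finite G]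
    (α : G →* (A ≃⋆ₐ[ℂ] A)) (hχ : IsEmpty (CentralSeq ω A →⋆ₐ[ℂ] ℂ)) :
    IsEmpty (FixCentral ω α →⋆ₐ[ℂ] ℂ) := by
  letI := cs ω (A := A)
  obtain ⟨e1⟩ := fixIso ω α
  have h := hfin G (FF ω A) (act ω α) (eqSelfComm ω α hω) hχ
  exact ⟨fun χ => h.false (χ.comp (e1 : _ →⋆ₐ[ℂ] FixCentral ω α))⟩

theorem locfin_fix (hfin : S_FINITE.{u, v}) (ω : Ultrafilter ℕ)
    (hω : (ω : Filter ℕ) ≤ Filter.cofinite) {A : Type u}
    [CStarAlgebra A] [TopologicalSpace.SeparableSpace A] {G : Type v} [Group G] [Countable G]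
    (hG : ∀ s : Finset G, Finite (Subgroup.closure (s : Set G)))
    (α : G →* (A ≃⋆ₐ[ℂ] A)) (hχ : IsEmpty (CentralSeq ω A →⋆ₐ[ℂ] ℂ)) :
    IsEmpty (FixCentral ω α →⋆ₐ[ℂ] ℂ) := by
  refine locfin ω hω α fun s => ⟨Subgroup.closure (s : Set G), Subgroup.subset_closure, ?_⟩
  haveI := hG s
  exact finite_fix hfin ω hω _ hχ

theorem thmB (hfin : S_FINITE.{u, v}) (ω : Ultrafilter ℕ)
    (hω : (ω : Filter ℕ) ≤ Filter.cofinite) {A : Type u}
    [CStarAlgebra A] [TopologicalSpace.SeparableSpace A] {G : Type v} [Group G] [Countable G]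
    (hG : ∀ s : Finset G, Finite (Subgroup.closure (s : Set G)))
    (α : G →* (A ≃⋆ₐ[ℂ] A)) : IsEmpty (CentralSeq ω A →⋆ₐ[ℂ] ℂ) ↔
      ∀ n, Nonempty (DimDrop (n + 2) (n + 3) →⋆ₐ[ℂ] FixCentral ω α) := by
  refine ⟨fun h n => thmA ω hω α (locfin_fix hfin ω hω hG α h) n, fun h => ⟨fun χ => ?_⟩⟩
  let j : FixCentral ω α →⋆ₐ[ℂ] CentralSeq ω A :=
    { toFun := fun x => ⟨(x : Ultrapower ω A), x.2.1⟩
      map_one' := rfl
      map_mul' := fun _ _ => rfl
      map_zero' := rfl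
      map_add' := fun _ _ => rfl
      commutes' := fun _ => rfl
      map_star' := fun _ => rfl }
  exact (dimDrop_noChar 0 1).false ((χ.comp j).comp (h 0).some)

end Vale.Agent.P095
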