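import Vale.Agent.P095.EqUlt

/-!
# P095: inner automorphisms act trivially on the central sequence algebra
-/

open Filter Topology BoundedContinuousFunction

namespace Vale.Agent.P095

open Vale.Agent.P101 Vale.Agent.P101.UltA

universe u v

/-- an inner automorphism fixes every central sequence -/
theorem inner_fix (ω : Ultrafilter ℕ) {A : Type u} [CStarAlgebra A] (φ : A ≃⋆ₐ[ℂ] A) (w : A)
    (hw : w ∈ unitary A) (h : ∀ a, φ a = w * a * star w) (x : Ultrapower ω A)
    (hx : x ∈ CentralSeq ω A) : ultraMap ω φ x = x := by
  have h1 : ultraMap ω φ x = constSeq ω w * x * constSeq ω (star w) := by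
    obtain ⟨a, rfl⟩ := mk_surj ω A x
    change (RingCon.toQuotient (seqMap φ a) : Ultrapower ω A)
      = RingCon.toQuotient ((BoundedContinuousFunction.const ℕ w) * a
        * (BoundedContinuousFunction.const ℕ (star w)))
    congr 1
    ext n
    exact h (a n)
  have h2 : constSeq ω w * x = x * constSeq ω w := ((mem_central' ω).1 hx w)
  have h3 : constSeq ω w * constSeq ω (star w) = (1 : Ultrapower ω A) := by
    change (RingCon.toQuotient ((BoundedContinuousFunction.const ℕ w)
      * (BoundedContinuousFunction.const ℕ (star w))) : Ultrapower ω A) = RingCon.toQuotient 1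
    congr 1
    ext n
    exact (Unitary.mem_iff.1 hw).2
  rw [h1, h2, mul_assoc, h3, mul_one]

/-- if `N` acts by inner automorphisms, then every central sequence is fixed by `N` -/
theorem fixCentral_inner (ω : Ultrafilter ℕ) {A : Type u} [CStarAlgebra A] {G : Type v} [Group G]
    (α : G →* (A ≃⋆ₐ[ℂ] A)) (hα : ∀ g, ∃ w ∈ unitary A, ∀ a, α g a = w * a * star w) :
    FixCentral ω α = CentralSeq ω A := by
  ext x
  constructor
  · intro hx
    exact hx.1
  · intro hx
    refine ⟨hx, fun g => ?_⟩
    obtain ⟨w, hw, h⟩ := hα g
    exact inner_fix ω (α g) w hw h x hx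

end Vale.Agent.P095
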