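import Vale.Agent.P095.Defs
import Vale.Agent.P095.FinalB
import Vale.Agent.P095.Fin
import Vale.Agent.P095.FinIdx
import Vale.Agent.P095.Inner

/-!
# P095: the final theorem
-/

open Filter Topology BoundedContinuousFunction

namespace Vale.Agent.P095

open Vale.Agent.P101 Vale.Agent.P101.UltA

universe u v

/-- characters of the fixed point algebra of a larger group -/
theorem noChar_mono (ω : Ultrafilter ℕ) {A : Type u} [CStarAlgebra A] {G : Type v} [Group G]
    (α : G →* (A ≃⋆ₐ[ℂ] A)) {H K : Subgroup G} (hHK : H ≤ K) (h : NoCharacters ω α K) :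
    NoCharacters ω α H := by
  refine ⟨fun χ => h.false (χ.comp (StarSubalgebra.inclusion ?_))⟩
  refine inf_le_inf_left _ ?_
  intro x hx
  exact fun a ha g hg => hx a ha g (hHK hg)

theorem noChar_iff (ω : Ultrafilter ℕ) (hω : (ω : Filter ℕ) ≤ Filter.cofinite) {A : Type u}
    [CStarAlgebra A] [TopologicalSpace.SeparableSpace A] {G : Type v} [Group G] [Countable G]
    (α : G →* (A ≃⋆ₐ[ℂ] A)) (H : Subgroup G) : NoCharacters ω α H ↔ DimDropsEmbed ω α H := by
  unfold NoCharacters DimDropsEmbed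
  rw [fixCen_eq]
  exact thmA_iff ω hω (α.comp H.subtype)

/-- overgroups of finite index -/
theorem noChar_finidx (ω : Ultrafilter ℕ) (hω : (ω : Filter ℕ) ≤ Filter.cofinite) {A : Type u}
    [CStarAlgebra A] [TopologicalSpace.SeparableSpace A] {G : Type v} [Group G] [Countable G]
    (α : G →* (A ≃⋆ₐ[ℂ] A)) (H K : Subgroup G) (hf : (H.subgroupOf K).FiniteIndex)
    (h : NoCharacters ω α H) : IsEmpty (FixCentral ω (α.comp K.subtype) →⋆ₐ[ℂ] ℂ) := by
  have h' : NoCharacters ω α (H ⊓ K) := noChar_mono ω α inf_le_left h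
  letI := cs ω (A := A)
  obtain ⟨e1⟩ := fixIso ω (α.comp K.subtype)
  have key := finidx finite (FF ω A) K (act ω (α.comp K.subtype)) (H.subgroupOf K)
    (eqSelfComm ω (α.comp K.subtype) hω) ?_
  · exact ⟨fun χ => key.false (χ.comp (e1 : _ →⋆ₐ[ℂ] FixCentral ω (α.comp K.subtype)))⟩
  · refine ⟨fun χ => h'.false ?_⟩
    refine χ.comp
      { toFun := fun x => ⟨⟨(x : Ultrapower ω A), x.2.1⟩, ?_⟩
        map_one' := rfl
        map_mul' := fun _ _ => rfl
        map_zero' := rfl
        map_add' := fun _ _ => rfl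
        commutes' := fun _ => rfl
        map_star' := fun _ => rfl }
    intro g
    have hx : (x : Ultrapower ω A) ∈ FixedSet ω α (H ⊓ K) := x.2.2
    rw [mem_fixedSet_iff] at hx
    exact Subtype.ext (hx (g : K) ⟨g.2, (g : K).2⟩)

/-- directed unions and overgroups of finite index -/
theorem noChar_top (ω : Ultrafilter ℕ) (hω : (ω : Filter ℕ) ≤ Filter.cofinite) {A : Type u}
    [CStarAlgebra A] [TopologicalSpace.SeparableSpace A] {G : Type v} [Group G] [Countable G]
    (α : G →* (A ≃⋆ₐ[ℂ] A)) (h : ∀ s : Finset G, ∃ H K : Subgroup G, (s : Set G) ⊆ K ∧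
      (H.subgroupOf K).FiniteIndex ∧ NoCharacters ω α H) : NoCharacters ω α ⊤ := by
  have h1 : IsEmpty (FixCentral ω α →⋆ₐ[ℂ] ℂ) := by
    refine locfin ω hω α fun s => ?_
    obtain ⟨H, K, h1, h2, h3⟩ := h s
    exact ⟨K, h1, noChar_finidx ω hω α H K h2 h3⟩
  refine ⟨fun χ => h1.false (χ.comp (StarSubalgebra.inclusion ?_))⟩
  intro x hx
  rw [fixCen_eq]
  exact ⟨hx.1, fun g => hx.2 g⟩

/-- inner actions -/
theorem noChar_inner (ω : Ultrafilter ℕ) {A : Type u} [CStarAlgebra A] {G : Type v} [Group G]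
    (α : G →* (A ≃⋆ₐ[ℂ] A)) (H : Subgroup G)
    (hH : ∀ g ∈ H, ∃ w ∈ unitary A, ∀ a, α g a = w * a * star w) (h : NoCharacters ω α ⊥) :
    NoCharacters ω α H := by
  refine ⟨fun χ => h.false (χ.comp (StarSubalgebra.inclusion ?_))⟩
  intro x hx
  rw [fixCen_eq, fixCentral_inner ω (α.comp H.subtype) fun g => hH g g.2]
  exact hx.1

end Vale.Agent.P095
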