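import Vale.Agent.P095.FixSC
import Vale.Agent.P101.Core

/-!
# P095: saturation
-/

open Filter Topology BoundedContinuousFunction

namespace Vale.Agent.P095

open Vale.Agent.P101 Vale.Agent.P101.UltA

universe u v

/-- countable saturation along an ultrafilter -/
theorem saturate {X : Type u} (ω : Ultrafilter ℕ) (hω : (ω : Filter ℕ) ≤ Filter.cofinite)
    (Φ : ℕ → X → ℝ) (h0 : ∀ l x, 0 ≤ Φ l x)
    (h : ∀ k : ℕ, ∃ x : ℕ → X, ∀ l ≤ k, Tendsto (fun n => Φ l (x n)) ω (𝓝 0)) :
    ∃ x : ℕ → X, ∀ l, Tendsto (fun n => Φ l (x n)) ω (𝓝 0) := by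
  classical
  have hat : (ω : Filter ℕ) ≤ atTop := by rwa [Nat.cofinite_eq_atTop] at hω
  choose x hx using h
  -- good indices
  set W : ℕ → Set ℕ := fun k => {n | ∀ l ≤ k, Φ l (x k n) < 1 / ((k : ℝ) + 1)} with hW
  have hWm : ∀ k, W k ∈ (ω : Filter ℕ) := by
    intro k
    have hpos : (0 : ℝ) < 1 / ((k : ℝ) + 1) := by positivity
    have : ∀ᶠ n in (ω : Filter ℕ), ∀ l ∈ Finset.range (k + 1), Φ l (x k n) < 1 / ((k : ℝ) + 1) := by
      rw [Filter.eventually_all_finset]
      intro l hl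
      exact (hx k l (by rw [Finset.mem_range] at hl; omega)).eventually (gt_mem_nhds hpos)
    filter_upwards [this] with n hn l hl
    exact hn l (Finset.mem_range.2 (by omega))
  -- the largest good level below `n`
  set K : ℕ → ℕ := fun n => Nat.findGreatest (fun k => n ∈ W k) n with hK
  refine ⟨fun n => x (K n) n, fun l => ?_⟩
  rw [Metric.tendsto_nhds]
  intro ε hε
  obtain ⟨N, hN⟩ := exists_nat_one_div_lt hε
  set M := max N l with hM
  have h1 : ∀ᶠ n in (ω : Filter ℕ), M ≤ n := hat (eventually_ge_atTop M)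
  filter_upwards [hWm M, h1] with n hn hMn
  have h2 : n ∈ W (K n) := Nat.findGreatest_spec (P := fun k => n ∈ W k) hMn hn
  have h3 : M ≤ K n := Nat.le_findGreatest hMn hn
  have h4 : Φ l (x (K n) n) < 1 / ((K n : ℝ) + 1) := h2 l (le_trans (le_max_right _ _) h3)
  rw [Real.dist_eq, sub_zero, abs_of_nonneg (h0 _ _)]
  refine h4.trans (lt_of_le_of_lt ?_ hN)
  have h5 : (N : ℝ) ≤ K n := by exact_mod_cast le_trans (le_max_left _ _) h3
  apply one_div_le_one_div_of_le <;> linarith [show (0 : ℝ) ≤ N from Nat.cast_nonneg N]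

end Vale.Agent.P095
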