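import Vale.Agent.P095.Cert

/-!
# P095: directed unions of groups
-/

open Filter Topology BoundedContinuousFunction

namespace Vale.Agent.P095

open Vale.Agent.P101 Vale.Agent.P101.UltA

universe u v

/-- the total algebraic defect of a quadruple -/
noncomputable def defect {A : Type u} [CStarAlgebra A] (y : Fin 4 → A) : ℝ :=
  ‖y 0 * y 0‖ + ‖(y 0 * star (y 0) + star (y 0) * y 0) - (y 1 + y 2) * (y 1 + y 2)‖ +
    ‖y 1 * y 2‖ + ‖y 1 * y 3 - y 3‖ + ‖star (y 3) * y 3 - (1 - (y 1 + y 2))‖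

theorem defect_tendsto (ω : Ultrafilter ℕ) {A : Type u} [CStarAlgebra A] (a : Fin 4 → (ℕ →ᵇ A)) :
    Tendsto (fun n => defect fun i => a i n) ω (𝓝 0) ↔
      Cert (cl ω (a 0)) (cl ω (a 1)) (cl ω (a 2)) (cl ω (a 3)) := by
  have key : ∀ x y : ℕ →ᵇ A, cl ω x = cl ω y ↔ Tendsto (fun n => ‖x n - y n‖) ω (𝓝 0) :=
    fun x y => cl_eq ω
  have e1 : (cl ω (a 0) * cl ω (a 0) = 0) ↔ Tendsto (fun n => ‖a 0 n * a 0 n‖) ω (𝓝 0) := by
    have := key (a 0 * a 0) 0
    rw [cl_mul, cl_zero] at this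
    rw [this]
    simp
  have e2 : (cl ω (a 0) * star (cl ω (a 0)) + star (cl ω (a 0)) * cl ω (a 0)
      = (cl ω (a 1) + cl ω (a 2)) * (cl ω (a 1) + cl ω (a 2))) ↔
      Tendsto (fun n => ‖(a 0 n * star (a 0 n) + star (a 0 n) * a 0 n) -
        (a 1 n + a 2 n) * (a 1 n + a 2 n)‖) ω (𝓝 0) :=
    key (a 0 * star (a 0) + star (a 0) * a 0) ((a 1 + a 2) * (a 1 + a 2))
  have e3 : (cl ω (a 1) * cl ω (a 2) = 0) ↔ Tendsto (fun n => ‖a 1 n * a 2 n‖) ω (𝓝 0) := by
    have := key (a 1 * a 2) 0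
    rw [cl_mul, cl_zero] at this
    rw [this]
    simp
  have e4 : (cl ω (a 1) * cl ω (a 3) = cl ω (a 3)) ↔
      Tendsto (fun n => ‖a 1 n * a 3 n - a 3 n‖) ω (𝓝 0) := key (a 1 * a 3) (a 3)
  have e5 : (star (cl ω (a 3)) * cl ω (a 3) = 1 - (cl ω (a 1) + cl ω (a 2))) ↔
      Tendsto (fun n => ‖star (a 3 n) * a 3 n - (1 - (a 1 n + a 2 n))‖) ω (𝓝 0) :=
    key (star (a 3) * a 3) (1 - (a 1 + a 2))
  unfold Cert
  rw [e1, e2, e3, e4, e5]
  constructor
  · intro h
    refine ⟨?_, ?_, ?_, ?_, ?_⟩ <;>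
    · refine squeeze_zero (fun n => norm_nonneg _) (fun n => ?_) h
      unfold defect
      have n1 := norm_nonneg (a 0 n * a 0 n)
      have n2 := norm_nonneg ((a 0 n * star (a 0 n) + star (a 0 n) * a 0 n) -
        (a 1 n + a 2 n) * (a 1 n + a 2 n))
      have n3 := norm_nonneg (a 1 n * a 2 n)
      have n4 := norm_nonneg (a 1 n * a 3 n - a 3 n)
      have n5 := norm_nonneg (star (a 3 n) * a 3 n - (1 - (a 1 n + a 2 n)))
      linarith
  · rintro ⟨h1, h2, h3, h4, h5⟩
    have := ((((h1.add h2).add h3).add h4).add h5)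
    simpa [defect] using this

/-- the level `l` condition -/
noncomputable def level {A : Type u} [CStarAlgebra A] {G : Type v} [Group G]
    (α : G →* (A ≃⋆ₐ[ℂ] A)) (c : ℕ → A) (g : ℕ → G) (l : ℕ) (y : Fin 4 → A) : ℝ :=
  defect y + (∑ i, ‖y i * c l - c l * y i‖) + ∑ i, ‖α (g l) (y i) - y i‖

theorem locfin (ω : Ultrafilter ℕ) (hω : (ω : Filter ℕ) ≤ Filter.cofinite) {A : Type u}
    [CStarAlgebra A] [TopologicalSpace.SeparableSpace A] {G : Type v} [Group G] [Countable G]
    (α : G →* (A ≃⋆ₐ[ℂ] A))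
    (hH : ∀ s : Finset G, ∃ H : Subgroup G, (s : Set G) ⊆ H ∧
      IsEmpty (FixCentral ω (α.comp H.subtype) →⋆ₐ[ℂ] ℂ)) :
    IsEmpty (FixCentral ω α →⋆ₐ[ℂ] ℂ) := by
  classical
  obtain ⟨g, hg⟩ := exists_surjective_nat G
  set c : ℕ → A := TopologicalSpace.denseSeq A with hc
  -- the space of bounded quadruples
  let X := {y : Fin 4 → A // ∀ i, ‖y i‖ ≤ 2}
  obtain ⟨x, hx⟩ := saturate (X := X) ω hω (fun l y => level α c g l y.1)
    (by
      intro l y
      have : ∀ z : Fin 4 → A, 0 ≤ defect z := fun z => by unfold defect; positivity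
      have := this y.1
      unfold level
      positivity)
    (by
      intro k
      obtain ⟨H, hsH, hχ⟩ := hH ((Finset.range (k + 1)).image g)
      have hgH : ∀ l ≤ k, g l ∈ H := by
        intro l hl
        apply hsH
        rw [Finset.coe_image]
        exact ⟨l, by simpa using Nat.lt_succ_of_le hl, rfl⟩
      letI := cs ω (A := A)
      -- the relations hold in the fixed point algebra
      obtain ⟨E, _, ⟨e2⟩, hE⟩ := fixsc (FF ω A) H (fun h => act ω (α.comp H.subtype) h)
        (eqSelfComm ω (α.comp H.subtype) hω)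
      obtain ⟨e1⟩ := fixIso ω (α.comp H.subtype)
      have hEχ : IsEmpty (E →⋆ₐ[ℂ] ℂ) :=
        ⟨fun χ => hχ.false (χ.comp (((e2.trans e1).symm : FixCentral ω (α.comp H.subtype) ≃⋆ₐ[ℂ] E) :
          FixCentral ω (α.comp H.subtype) →⋆ₐ[ℂ] E))⟩
      have hRW : RW 0 (fixAlg (FF ω A) (fun h => act ω (α.comp H.subtype) h)) :=
        (abstract E hE hEχ 0).map (e2 : E →⋆ₐ[ℂ] _)
      obtain ⟨X0, U0, V0, S0, ⟨mX, mU, mV, mS⟩, hcert, nX, nU, nV, nS⟩ := cert_of_RW _ hRW
      set Y : Fin 4 → FF ω A := ![X0, U0, V0, S0] with hY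
      have hYn : ∀ i, nrm ω (Y i : Ultrapower ω A) < 2 := by
        intro i
        have : ‖Y i‖ ≤ 1 := by
          fin_cases i
          · exact nX
          · exact nU
          · exact nV
          · exact nS
        have h2 : nrm ω (Y i : Ultrapower ω A) = ‖Y i‖ := rfl
        rw [h2]
        linarith
      have hYm : ∀ i, Y i ∈ fixAlg (FF ω A) (fun h => act ω (α.comp H.subtype) h) := by
        intro i
        fin_cases i
        · exact mX
        · exact mU
        · exact mV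
        · exact mS
      choose a ha han using fun i => exists_lift ω (Y i : Ultrapower ω A) (hYn i)
      refine ⟨fun n => ⟨fun i => a i n, fun i => ((a i).norm_coe_le_norm n).trans (han i)⟩, ?_⟩
      intro l hl
      have t1 : Tendsto (fun n => defect fun i => a i n) ω (𝓝 0) := by
        rw [defect_tendsto, ha, ha, ha, ha]
        obtain ⟨c1, c2, c3, c4, c5⟩ := hcert
        exact ⟨congrArg (fun z : FF ω A => (z : Ultrapower ω A)) c1,
          congrArg (fun z : FF ω A => (z : Ultrapower ω A)) c2,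
          congrArg (fun z : FF ω A => (z : Ultrapower ω A)) c3,
          congrArg (fun z : FF ω A => (z : Ultrapower ω A)) c4,
          congrArg (fun z : FF ω A => (z : Ultrapower ω A)) c5⟩
      have t2 : ∀ i, Tendsto (fun n => ‖a i n * c l - c l * a i n‖) ω (𝓝 0) := by
        intro i
        have h1 := (mem_central' ω).1 (Y i).2 (c l)
        rw [← ha i] at h1
        have h2 : cl ω (a i * BoundedContinuousFunction.const ℕ (c l))
            = cl ω (BoundedContinuousFunction.const ℕ (c l) * a i) := h1.symm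
        exact (cl_eq ω).1 h2
      have t3 : ∀ i, Tendsto (fun n => ‖α (g l) (a i n) - a i n‖) ω (𝓝 0) := by
        intro i
        have h1 := hYm i ⟨g l, hgH l hl⟩
        have h2 : ultraMap ω (α (g l)) (Y i : Ultrapower ω A) = (Y i : Ultrapower ω A) :=
          congrArg (fun z : FF ω A => (z : Ultrapower ω A)) h1
        rw [← ha i, ultraMap_cl] at h2
        exact (cl_eq ω).1 h2
      have t4 : Tendsto (fun n => ∑ i, ‖a i n * c l - c l * a i n‖) ω (𝓝 0) := by
        simpa using tendsto_finset_sum Finset.univ fun i _ => t2 i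
      have t5 : Tendsto (fun n => ∑ i, ‖α (g l) (a i n) - a i n‖) ω (𝓝 0) := by
        simpa using tendsto_finset_sum Finset.univ fun i _ => t3 i
      have := (t1.add t4).add t5
      simpa [level] using this)
  -- the resulting quadruple
  let a : Fin 4 → (ℕ →ᵇ A) := fun i =>
    BoundedContinuousFunction.ofNormedAddCommGroupDiscrete (fun n => (x n).1 i) 2
      (fun n => (x n).2 i)
  have hsub : ∀ l, Tendsto (fun n => defect fun i => a i n) ω (𝓝 0) ∧
      (∀ i, Tendsto (fun n => ‖a i n * c l - c l * a i n‖) ω (𝓝 0)) ∧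
      (∀ i, Tendsto (fun n => ‖α (g l) (a i n) - a i n‖) ω (𝓝 0)) := by
    intro l
    have hd : ∀ z : Fin 4 → A, 0 ≤ defect z := fun z => by unfold defect; positivity
    have hl := hx l
    refine ⟨?_, fun i => ?_, fun i => ?_⟩
    · refine squeeze_zero (fun n => hd _) (fun n => ?_) hl
      unfold level
      have s1 : 0 ≤ ∑ i, ‖(x n).1 i * c l - c l * (x n).1 i‖ :=
        Finset.sum_nonneg fun i _ => norm_nonneg _
      have s2 : 0 ≤ ∑ i, ‖α (g l) ((x n).1 i) - (x n).1 i‖ :=
        Finset.sum_nonneg fun i _ => norm_nonneg _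
      have s3 : (defect fun i => a i n) = defect (x n).1 := rfl
      rw [s3]
      linarith
    · refine squeeze_zero (fun n => norm_nonneg _) (fun n => ?_) hl
      unfold level
      have s1 : ‖(x n).1 i * c l - c l * (x n).1 i‖ ≤ ∑ i, ‖(x n).1 i * c l - c l * (x n).1 i‖ :=
        Finset.single_le_sum (f := fun i => ‖(x n).1 i * c l - c l * (x n).1 i‖)
          (fun i _ => norm_nonneg _) (Finset.mem_univ i)
      have s2 : 0 ≤ ∑ i, ‖α (g l) ((x n).1 i) - (x n).1 i‖ :=
        Finset.sum_nonneg fun i _ => norm_nonneg _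
      have s3 := hd (x n).1
      have s4 : ‖a i n * c l - c l * a i n‖ = ‖(x n).1 i * c l - c l * (x n).1 i‖ := rfl
      rw [s4]
      linarith
    · refine squeeze_zero (fun n => norm_nonneg _) (fun n => ?_) hl
      unfold level
      have s1 : 0 ≤ ∑ i, ‖(x n).1 i * c l - c l * (x n).1 i‖ :=
        Finset.sum_nonneg fun i _ => norm_nonneg _
      have s2 : ‖α (g l) ((x n).1 i) - (x n).1 i‖ ≤ ∑ i, ‖α (g l) ((x n).1 i) - (x n).1 i‖ :=
        Finset.single_le_sum (f := fun i => ‖α (g l) ((x n).1 i) - (x n).1 i‖)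
          (fun i _ => norm_nonneg _) (Finset.mem_univ i)
      have s3 := hd (x n).1
      have s4 : ‖α (g l) (a i n) - a i n‖ = ‖α (g l) ((x n).1 i) - (x n).1 i‖ := rfl
      rw [s4]
      linarith
  have hcentral : ∀ i, cl ω (a i) ∈ CentralSeq ω A := by
    intro i
    rw [mem_central']
    intro e
    have h1 : ∀ k, cl ω (a i) * constSeq ω (c k) = constSeq ω (c k) * cl ω (a i) := by
      intro k
      change cl ω (a i * BoundedContinuousFunction.const ℕ (c k))
        = cl ω (BoundedContinuousFunction.const ℕ (c k) * a i)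
      exact (cl_eq ω).2 ((hsub k).2.1 i)
    exact comm_closure ω (y := cl ω (a i))
      (T := Set.range fun k => BoundedContinuousFunction.const ℕ (c k)) (fun a => a)
      (fun _ _ => rfl) (fun _ => le_rfl) (by
        rintro _ ⟨k, rfl⟩
        exact (h1 k).symm) (BoundedContinuousFunction.const ℕ e) (by
        rw [Metric.mem_closure_iff]
        intro ε hε
        have h4 : e ∈ closure (Set.range c) := TopologicalSpace.denseRange_denseSeq A e
        obtain ⟨_, ⟨k, rfl⟩, hk⟩ := Metric.mem_closure_iff.1 h4 ε hε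
        refine ⟨_, ⟨k, rfl⟩, ?_⟩
        refine lt_of_le_of_lt ?_ hk
        exact (BoundedContinuousFunction.dist_le dist_nonneg).2 fun n => le_rfl)
  have hfix : ∀ i, cl ω (a i) ∈ FixCentral ω α := by
    intro i
    refine ⟨hcentral i, fun h => ?_⟩
    obtain ⟨l, rfl⟩ := hg h
    rw [ultraMap_cl]
    exact (cl_eq ω).2 ((hsub l).2.2 i)
  have hcert := (defect_tendsto ω a).1 (hsub 0).1
  have hcert' : Cert (⟨cl ω (a 0), hfix 0⟩ : FixCentral ω α) ⟨cl ω (a 1), hfix 1⟩
      ⟨cl ω (a 2), hfix 2⟩ ⟨cl ω (a 3), hfix 3⟩ := by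
    obtain ⟨c1, c2, c3, c4, c5⟩ := hcert
    exact ⟨Subtype.ext c1, Subtype.ext c2, Subtype.ext c3, Subtype.ext c4, Subtype.ext c5⟩
  exact hcert'.noChar

end Vale.Agent.P095
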